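import Vale.Agent.P219.Core

/-!
# P219: cutting a radial weight off at the origin

Below `η` the weight becomes the odd cubic with the same value and slope at `η`. A weight that is
a continuous function of `1/t` up to `0` (with its slope) is bounded.
-/

open Set

namespace Vale.Agent.P219

/-- A weight, singular at the origin, to be cut off. -/
structure RawWeight where
  W : ℝ → ℝ
  dW : ℝ → ℝ
  Φ : ℝ → ℝ
  Ψ : ℝ → ℝ
  hasDeriv : ∀ t, 0 < t → HasDerivAt W (dW t) t
  cont : ∀ t, 0 < t → ContinuousAt dW t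
  nonneg : ∀ t, 0 < t → 0 ≤ W t
  eqΦ : ∀ t, 0 < t → W t = Φ t⁻¹
  eqΨ : ∀ t, 0 < t → dW t = Ψ t⁻¹
  contΦ : ContinuousOn Φ (Ici 0)
  contΨ : ContinuousOn Ψ (Ici 0)

namespace RawWeight

variable (A : RawWeight) (η : ℝ)

/-- The linear coefficient of the cubic. -/
noncomputable def lin : ℝ := (3 * A.W η / η - A.dW η) / 2

/-- The cubic coefficient. -/
noncomputable def cub : ℝ := (A.dW η - A.W η / η) / (2 * η ^ 2)

/-- `F/t` of the cut weight. -/
noncomputable def cutf (t : ℝ) : ℝ :=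
  if t ≤ η then A.lin η + A.cub η * t ^ 2 else A.W (max t η) / max t η

/-- The slope of the cut weight. -/
noncomputable def cutd (t : ℝ) : ℝ :=
  if t ≤ η then A.lin η + 3 * A.cub η * t ^ 2 else A.dW (max t η)

variable {A η}

theorem lin_cub_val (h : 0 < η) : A.lin η + A.cub η * η ^ 2 = A.W η / η := by
  simp only [lin, cub]; field_simp; ring

theorem lin_cub_slope (h : 0 < η) : A.lin η + 3 * A.cub η * η ^ 2 = A.dW η := by
  simp only [lin, cub]; field_simp; ring

theorem cutf_le {t : ℝ} (ht : t ≤ η) : A.cutf η t = A.lin η + A.cub η * t ^ 2 := if_pos ht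

theorem cutd_le {t : ℝ} (ht : t ≤ η) : A.cutd η t = A.lin η + 3 * A.cub η * t ^ 2 := if_pos ht

theorem cutf_ge (h : 0 < η) {t : ℝ} (ht : η ≤ t) : A.cutf η t = A.W t / t := by
  rcases ht.eq_or_lt with rfl | h'
  · rw [cutf_le le_rfl, lin_cub_val h]
  · rw [cutf, if_neg h'.not_ge, max_eq_left ht]

theorem cutd_ge (h : 0 < η) {t : ℝ} (ht : η ≤ t) : A.cutd η t = A.dW t := by
  rcases ht.eq_or_lt with rfl | h'
  · rw [cutd_le le_rfl, lin_cub_slope h]
  · rw [cutd, if_neg h'.not_ge, max_eq_left ht]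

theorem continuous_cutf (h : 0 < η) : Continuous (A.cutf η) := by
  have hp : ∀ t : ℝ, 0 < max t η := fun t => lt_max_of_lt_right h
  have hm : Continuous fun t : ℝ => max t η := by fun_prop
  refine Continuous.if_le (by fun_prop) ((continuous_iff_continuousAt.2 fun t => ?_).div hm
    fun t => (hp t).ne') continuous_id continuous_const fun t ht => ?_
  · exact (A.hasDeriv _ (hp t)).continuousAt.comp (f := fun s => max s η) hm.continuousAt
  · subst ht; rw [max_self, lin_cub_val h]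

theorem continuous_cutd (h : 0 < η) : Continuous (A.cutd η) := by
  have hp : ∀ t : ℝ, 0 < max t η := fun t => lt_max_of_lt_right h
  have hm : Continuous fun t : ℝ => max t η := by fun_prop
  refine Continuous.if_le (by fun_prop) (continuous_iff_continuousAt.2 fun t => ?_)
    continuous_id continuous_const fun t ht => ?_
  · exact (A.cont _ (hp t)).comp (f := fun s => max s η) hm.continuousAt
  · subst ht; rw [max_self, lin_cub_slope h]

theorem hasDerivAt_cut (h : 0 < η) (t : ℝ) :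
    HasDerivAt (fun s => s * A.cutf η s) (A.cutd η t) t := by
  have hlow : HasDerivAt (fun s => A.lin η * s + A.cub η * s ^ 3)
      (A.lin η + 3 * A.cub η * t ^ 2) t := by
    refine (((hasDerivAt_id' t).const_mul (A.lin η)).add
      ((hasDerivAt_pow 3 t).const_mul (A.cub η))).congr_deriv ?_
    push_cast
    ring
  have elow : ∀ s, s ≤ η → s * A.cutf η s = A.lin η * s + A.cub η * s ^ 3 := by
    intro s hs; rw [cutf_le hs]; ring
  have ehigh : ∀ s, η ≤ s → s * A.cutf η s = A.W s := by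
    intro s hs
    rw [cutf_ge h hs, mul_div_cancel₀ _ (h.trans_le hs).ne']
  have hA : t ≤ η → HasDerivWithinAt (fun s => s * A.cutf η s) (A.cutd η t) (Iic η) t := by
    intro ht
    rw [cutd_le ht]
    exact hlow.hasDerivWithinAt.congr (fun s hs => elow s hs) (elow t ht)
  have hB : η ≤ t → HasDerivWithinAt (fun s => s * A.cutf η s) (A.cutd η t) (Ici η) t := by
    intro ht
    rw [cutd_ge h ht]
    exact (A.hasDeriv t (h.trans_le ht)).hasDerivWithinAt.congr (fun s hs => ehigh s hs) (ehigh t ht)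
  rcases lt_trichotomy t η with ht | ht | ht
  · exact (hA ht.le).hasDerivAt (Iic_mem_nhds ht)
  · subst ht
    have := (hA le_rfl).union (hB le_rfl)
    rw [Iic_union_Ici] at this
    exact this.hasDerivAt Filter.univ_mem
  · exact (hB ht.le).hasDerivAt (Ici_mem_nhds ht)

theorem lin_cub_bound (h : 0 < η) (hd : A.dW η ≤ 0) :
    A.cub η ≤ 0 ∧ 0 ≤ A.lin η := by
  have := A.nonneg η h
  have : 0 ≤ A.W η / η := by positivity
  refine ⟨div_nonpos_of_nonpos_of_nonneg (by linarith) (by positivity), ?_⟩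
  simp only [lin]
  have e : 3 * A.W η / η = 3 * (A.W η / η) := by ring
  linarith

theorem cutf_nonneg (h : 0 < η) (hd : A.dW η ≤ 0) {t : ℝ} (ht : 0 ≤ t) : 0 ≤ A.cutf η t := by
  rcases le_total t η with hle | hle
  · rw [cutf_le hle]
    obtain ⟨hc, -⟩ := lin_cub_bound h hd
    have h2 := mul_le_mul_of_nonpos_left (pow_le_pow_left₀ ht hle 2) hc
    have : 0 ≤ A.W η / η := div_nonneg (A.nonneg η h) h.le
    linarith [lin_cub_val (A := A) h]
  · rw [cutf_ge h hle]
    exact div_nonneg (A.nonneg t (h.trans_le hle)) ht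

/-- The cut weight. -/
noncomputable def cut (A : RawWeight) (η : ℝ) (h : 0 < η) (hd : A.dW η ≤ 0) : Radial where
  F := fun t => t * A.cutf η t
  dF := A.cutd η
  f := A.cutf η
  hasDeriv := hasDerivAt_cut h
  cont_dF := continuous_cutd h
  cont_f := continuous_cutf h
  F_eq := fun _ => rfl
  f_nonneg := fun _ ht => cutf_nonneg h hd ht
  bdd := by
    have hc : Continuous fun t => t * A.cutf η t := continuous_id.mul (continuous_cutf h)
    obtain ⟨C1, h1⟩ := (isCompact_Icc (a := (0 : ℝ)) (b := η)).exists_bound_of_continuousOn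
      hc.continuousOn
    obtain ⟨C2, h2⟩ := (isCompact_Icc (a := (0 : ℝ)) (b := η)).exists_bound_of_continuousOn
      (continuous_cutd (A := A) h).continuousOn
    obtain ⟨C3, h3⟩ := (isCompact_Icc (a := (0 : ℝ)) (b := η)).exists_bound_of_continuousOn
      (continuous_cutf (A := A) h).continuousOn
    obtain ⟨D1, g1⟩ := (isCompact_Icc (a := (0 : ℝ)) (b := η⁻¹)).exists_bound_of_continuousOn
      (A.contΦ.mono Icc_subset_Ici_self)
    obtain ⟨D2, g2⟩ := (isCompact_Icc (a := (0 : ℝ)) (b := η⁻¹)).exists_bound_of_continuousOn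
      (A.contΨ.mono Icc_subset_Ici_self)
    obtain ⟨D3, g3⟩ := (isCompact_Icc (a := (0 : ℝ)) (b := η⁻¹)).exists_bound_of_continuousOn
      ((A.contΦ.mono Icc_subset_Ici_self).mul continuousOn_id)
    refine ⟨max (max C1 (max C2 C3)) (max D1 (max D2 D3)), fun t ht => ?_⟩
    rcases le_total t η with hle | hle
    · refine ⟨(h1 t ⟨ht, hle⟩).trans ?_, (h2 t ⟨ht, hle⟩).trans ?_,
        (h3 t ⟨ht, hle⟩).trans ?_⟩ <;> simp
    · have htp : 0 < t := h.trans_le hle
      have hx : t⁻¹ ∈ Icc (0 : ℝ) η⁻¹ := ⟨inv_nonneg.2 ht, inv_anti₀ h hle⟩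
      rw [cutf_ge h hle, cutd_ge h hle, mul_div_cancel₀ _ htp.ne', div_eq_mul_inv, A.eqΦ t htp,
        A.eqΨ t htp]
      refine ⟨(g1 _ hx).trans ?_, (g2 _ hx).trans ?_, (g3 _ hx).trans ?_⟩ <;> simp

theorem cut_K_ge (h : 0 < η) (hd : A.dW η ≤ 0) (n : ℕ) {t : ℝ} (ht : η ≤ t) (c : ℝ) :
    (A.cut η h hd).K n t c
      = A.dW t * (1 - c ^ 2) + ((n : ℝ) - 2 + c ^ 2) * (A.W t / t)
        - ((n : ℝ) - 1) * A.W t * c := by
  simp only [Radial.K, cut, cutd_ge h ht, cutf_ge h ht, mul_div_cancel₀ _ (h.trans_le ht).ne']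

theorem cut_K_le (h : 0 < η) (hd : A.dW η ≤ 0) (n : ℕ) {t : ℝ} (ht : t ≤ η) (c : ℝ) :
    (A.cut η h hd).K n t c
      = (((n : ℝ) - 1) * A.lin η + ((n : ℝ) + 1) * A.cub η * t ^ 2)
        - c * (((n : ℝ) - 1) * (A.lin η * t + A.cub η * t ^ 3))
        - c ^ 2 * (2 * A.cub η * t ^ 2) := by
  simp only [Radial.K, cut, cutd_le ht, cutf_le ht]
  ring

end RawWeight

end Vale.Agent.P219
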