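import Vale.Agent.P219.Core

/-!
# P219: the law of the first direction cosine on a ball

A function of `v 0 / ‖v‖` integrates over the unit ball of `ℝ^(m+1)` like a function of the cosine
of a polar angle in the half plane `(v 0, ‖tail v‖)`.
-/

open MeasureTheory Set

namespace Vale.Agent.P219

/-- Splitting off the first coordinate. -/
noncomputable def splitFirst (m : ℕ) : EE (m + 1) ≃ᵐ ℝ × EE m :=
  (MeasurableEquiv.toLp 2 (Fin (m + 1) → ℝ)).symm.trans
    ((MeasurableEquiv.piFinSuccAbove (fun _ : Fin (m + 1) => ℝ) 0).trans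
      (MeasurableEquiv.prodCongr (MeasurableEquiv.refl ℝ) (MeasurableEquiv.toLp 2 (Fin m → ℝ))))

theorem splitFirst_preserving (m : ℕ) : MeasurePreserving (splitFirst m) volume volume :=
  ((MeasurePreserving.id (volume : Measure ℝ)).prod (PiLp.volume_preserving_toLp (Fin m))).comp
    ((volume_preserving_piFinSuccAbove (fun _ : Fin (m + 1) => ℝ) 0).comp
      (PiLp.volume_preserving_ofLp (Fin (m + 1))))

theorem splitFirst_fst {m : ℕ} (v : EE (m + 1)) : (splitFirst m v).1 = v 0 := rfl

theorem splitFirst_sq {m : ℕ} (v : EE (m + 1)) :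
    (splitFirst m v).1 ^ 2 + ‖(splitFirst m v).2‖ ^ 2 = ‖v‖ ^ 2 := by
  rw [EuclideanSpace.real_norm_sq_eq, EuclideanSpace.real_norm_sq_eq, Fin.sum_univ_succ]
  rfl

theorem integral_Icc_pow (m : ℕ) :
    ∫ r in Ioi (0 : ℝ), (Iic (1 : ℝ)).indicator (fun r => r ^ m) r = 1 / ((m : ℝ) + 1) := by
  rw [setIntegral_indicator measurableSet_Iic, Ioi_inter_Iic,
    ← intervalIntegral.integral_of_le zero_le_one, integral_pow]
  simp

/-- The first direction cosine on the unit ball of `ℝ^(m+1)`. -/
theorem integral_ball_marginal (m : ℕ) [NeZero m] {ψ : ℝ → ℝ} (hψ : Measurable ψ) {B : ℝ}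
    (hB : ∀ c, |ψ c| ≤ B) :
    ∫ v in Metric.closedBall (0 : EE (m + 1)) 1, ψ (v 0 / ‖v‖)
      = m * omega m / ((m : ℝ) + 1)
          * ∫ θ in (0 : ℝ)..Real.pi, Real.sin θ ^ (m - 1) * ψ (Real.cos θ) := by
  set D : Set (ℝ × ℝ) := {p | p.1 ^ 2 + p.2 ^ 2 ≤ 1} with hD
  set H : ℝ × ℝ → ℝ := D.indicator fun p => ψ (p.1 / Real.sqrt (p.1 ^ 2 + p.2 ^ 2)) with hH
  have hDm : MeasurableSet D := by
    apply measurableSet_le <;> fun_prop
  have hHm : Measurable H :=
    ((hψ.comp (measurable_fst.div (by fun_prop)))).indicator hDm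
  have hHB : ∀ p, |H p| ≤ B := by
    intro p
    rcases indicator_eq_zero_or_self D (fun p => ψ (p.1 / Real.sqrt (p.1 ^ 2 + p.2 ^ 2))) p
      with h | h
    · rw [hH, h, abs_zero]; exact (abs_nonneg _).trans (hB 0)
    · rw [hH, h]; exact hB _
  -- the ball in split coordinates
  have hA : ∫ v in Metric.closedBall (0 : EE (m + 1)) 1, ψ (v 0 / ‖v‖)
      = ∫ z : ℝ × EE m, H (z.1, ‖z.2‖) := by
    rw [← (splitFirst_preserving m).integral_comp', ← integral_indicator measurableSet_closedBall]
    refine integral_congr_ae (Filter.Eventually.of_forall fun v => ?_)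
    simp only [hH, hD]
    have hs := splitFirst_sq v
    have hv : v ∈ Metric.closedBall (0 : EE (m + 1)) 1 ↔ ‖v‖ ^ 2 ≤ 1 := by
      rw [Metric.mem_closedBall, dist_zero_right, sq_le_one_iff₀ (norm_nonneg _)]
    by_cases h : ‖v‖ ^ 2 ≤ 1
    · rw [indicator_of_mem (hv.2 h), indicator_of_mem (by simpa [hs] using h), hs,
        Real.sqrt_sq (norm_nonneg _), splitFirst_fst]
    · rw [indicator_of_notMem (mt hv.1 h), indicator_of_notMem (by simpa [hs] using h)]
  -- polar coordinates in the half plane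
  set F : ℝ × ℝ → ℝ := (univ ×ˢ Ioi 0).indicator fun p => p.2 ^ (m - 1) * H p with hF
  have hbox : ∀ p : ℝ × ℝ, H p ≠ 0 → |p.1| ≤ 1 ∧ |p.2| ≤ 1 := by
    intro p hp
    have h : p ∈ D := by_contra fun h => hp (indicator_of_notMem h _)
    simp only [hD, mem_ofPred_eq] at h
    constructor <;> rw [← sq_le_one_iff_abs_le_one] <;> nlinarith
  have hiH : Integrable fun z : ℝ × EE m => H (z.1, ‖z.2‖) := by
    refine Measure.integrableOn_of_bounded (M := B)
      (s := Icc (-1) 1 ×ˢ Metric.closedBall (0 : EE m) 1) ?_ ?_ ?_ |>.integrable_of_forall_notMem_eq_zero ?_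
    · exact (isCompact_Icc.prod (isCompact_closedBall _ _)).measure_lt_top.ne
    · exact (hHm.comp (by fun_prop)).aestronglyMeasurable
    · exact ae_of_all _ fun z => by rw [Real.norm_eq_abs]; exact hHB _
    · intro z hz
      by_contra h
      obtain ⟨h1, h2⟩ := hbox _ h
      exact hz ⟨abs_le.1 h1, by simpa using h2⟩
  have hiF : Integrable F := by
    refine Measure.integrableOn_of_bounded (M := B)
      (s := Icc (-1) 1 ×ˢ Icc (-1) 1) ?_ ?_ ?_ |>.integrable_of_forall_notMem_eq_zero ?_
    · exact (isCompact_Icc.prod isCompact_Icc).measure_lt_top.ne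
    · exact (((measurable_snd.pow_const _).mul hHm).indicator
        (MeasurableSet.univ.prod measurableSet_Ioi)).aestronglyMeasurable
    · refine ae_of_all _ fun p => ?_
      rw [Real.norm_eq_abs, hF]
      by_cases h : p ∈ univ ×ˢ Ioi (0 : ℝ)
      · rw [indicator_of_mem h, abs_mul]
        by_cases h0 : H p = 0
        · simp only [h0, abs_zero, mul_zero]; exact (abs_nonneg _).trans (hB 0)
        · rw [abs_pow]
          calc _ ≤ 1 * B := mul_le_mul (pow_le_one₀ (abs_nonneg _) (hbox p h0).2) (hHB p)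
                  (abs_nonneg _) zero_le_one
            _ = B := one_mul B
      · rw [indicator_of_notMem h, abs_zero]; exact (abs_nonneg _).trans (hB 0)
    · intro p hp
      by_contra h
      rw [hF] at h
      have h0 : H p ≠ 0 := by
        intro h0; apply h
        simp [indicator_apply, h0]
      obtain ⟨h1, h2⟩ := hbox _ h0
      exact hp ⟨abs_le.1 h1, abs_le.1 h2⟩
  have hC : ∫ z : ℝ × EE m, H (z.1, ‖z.2‖) = m * omega m * ∫ p : ℝ × ℝ, F p := by
    rw [Measure.volume_eq_prod, integral_prod _ (by rwa [← Measure.volume_eq_prod]),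
      Measure.volume_eq_prod, integral_prod _ (by rwa [← Measure.volume_eq_prod]),
      ← integral_const_mul]
    refine integral_congr_ae (Filter.Eventually.of_forall fun x => ?_)
    show ∫ w : EE m, H (x, ‖w‖) = _
    rw [integral_fun_norm_addHaar volume fun r => H (x, r), finrank_euclideanSpace_fin]
    have hball : (volume : Measure (EE m)).real (Metric.ball 0 1) = omega m := by
      rw [measureReal_def, omega, Measure.addHaar_closedBall_eq_addHaar_ball]
    rw [hball, ← integral_indicator measurableSet_Ioi]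
    simp only [smul_eq_mul, nsmul_eq_mul, ← mul_assoc]
    congr 1
    refine integral_congr_ae (Filter.Eventually.of_forall fun r => ?_)
    by_cases hr : 0 < r <;> simp [hF, hr]
  have hP : ∫ p : ℝ × ℝ, F p
      = (∫ r in Ioi (0 : ℝ), (Iic (1 : ℝ)).indicator (fun r => r ^ m) r)
        * ∫ θ in Ioo (-Real.pi) Real.pi,
            (Ioi 0).indicator (fun θ => Real.sin θ ^ (m - 1) * ψ (Real.cos θ)) θ := by
    rw [← integral_comp_polarCoord_symm F, ← setIntegral_prod_mul, ← Measure.volume_eq_prod]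
    refine setIntegral_congr_fun polarCoord.open_target.measurableSet fun p hp => ?_
    obtain ⟨hp1, hp2⟩ := hp
    simp only [mem_Ioi] at hp1
    simp only [mem_Ioo] at hp2
    have hsign : 0 < p.1 * Real.sin p.2 ↔ 0 < p.2 := by
      constructor
      · intro h
        by_contra h'
        have := Real.sin_nonpos_of_nonpos_of_neg_pi_le (not_lt.1 h') hp2.1.le
        nlinarith
      · intro h
        exact mul_pos hp1 (Real.sin_pos_of_pos_of_lt_pi h hp2.2)
    have hsq : (p.1 * Real.cos p.2) ^ 2 + (p.1 * Real.sin p.2) ^ 2 = p.1 ^ 2 := by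
      linear_combination p.1 ^ 2 * Real.sin_sq_add_cos_sq p.2
    simp only [polarCoord_symm_apply, hF, hH, hD, indicator_apply, mem_prod, mem_univ, true_and,
      mem_Ioi, mem_Iic, mem_ofPred_eq, hsign, hsq, smul_eq_mul, sq_le_one_iff₀ hp1.le,
      Real.sqrt_sq hp1.le]
    by_cases h1 : p.1 ≤ 1 <;> by_cases h2 : 0 < p.2
    · rw [if_pos h2, if_pos h1, if_pos h1, if_pos h2, mul_pow, mul_div_cancel_left₀ _ hp1.ne']
      obtain ⟨k, rfl⟩ : ∃ k, m = k + 1 := ⟨m - 1, by have := NeZero.ne m; omega⟩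
      simp only [Nat.add_sub_cancel, pow_succ]
      ring
    all_goals simp [h1, h2]
  rw [hA, hC, hP, integral_Icc_pow, setIntegral_indicator measurableSet_Ioi,
    show Ioo (-Real.pi) Real.pi ∩ Ioi 0 = Ioo (0 : ℝ) Real.pi by
      ext θ; simp only [mem_inter_iff, mem_Ioo, mem_Ioi]; constructor
      · rintro ⟨⟨-, h⟩, h'⟩; exact ⟨h', h⟩
      · rintro ⟨h, h'⟩; exact ⟨⟨by linarith [Real.pi_pos], h'⟩, h⟩,
    ← integral_Ioc_eq_integral_Ioo, ← intervalIntegral.integral_of_le Real.pi_pos.le]
  ring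

end Vale.Agent.P219
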