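import Mathlib

/-!
# P219: a checker for positivity of integer polynomials on boxes

A polynomial in one variable is its list of coefficients, one in two variables the list, by powers
of `t`, of polynomials in `s`. With `(γu+δw)x = αu+βw`, `u,w ≥ 0`, it becomes homogeneous in
`(u,w)`; if all new coefficients are nonnegative then so is the value.
-/

namespace Vale.Agent.P219.PosCheck

/-- The value at `x`. -/
def ev : List ℤ → ℝ → ℝ
  | [], _ => 0
  | c :: cs, x => c + x * ev cs x

/-- The value of a two-variable polynomial. -/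
def ev2 : List (List ℤ) → ℝ → ℝ → ℝ
  | [], _, _ => 0
  | r :: rs, t, s => ev r s + t * ev2 rs t s

/-- The value of a form in `(u,w)`. -/
def hev : List ℝ → ℝ → ℝ → ℝ
  | [], _, _ => 0
  | c :: cs, u, w => c * u ^ cs.length + w * hev cs u w

/-- The value of an integer form. -/
def hevZ (l : List ℤ) (u w : ℝ) : ℝ := hev (l.map (fun z : ℤ => (z : ℝ))) u w

def addL : List ℤ → List ℤ → List ℤ
  | a :: as, b :: bs => (a + b) :: addL as bs
  | _, _ => []

def scaleL (c : ℤ) (l : List ℤ) : List ℤ := l.map (c * ·)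

/-- Multiply a form by `αu+βw`. -/
def mulLin (α β : ℤ) (l : List ℤ) : List ℤ :=
  addL (scaleL α l ++ [0]) (0 :: scaleL β l)

def powLin (α β : ℤ) : ℕ → List ℤ
  | 0 => [1]
  | k + 1 => mulLin α β (powLin α β k)

/-- The homogenised polynomial. -/
def subst (α β γ δ : ℤ) : List ℤ → List ℤ
  | [] => []
  | [c] => [c]
  | c :: d :: cs =>
    addL (scaleL c (powLin γ δ (cs.length + 1))) (mulLin α β (subst α β γ δ (d :: cs)))

theorem addL_length : ∀ {l m : List ℤ}, l.length = m.length → (addL l m).length = l.length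
  | [], [], _ => rfl
  | [], _ :: _, h => by simp at h
  | _ :: _, [], h => by simp at h
  | _ :: as, _ :: bs, h => by
    simp only [addL, List.length_cons, addL_length (Nat.succ_injective h)]

theorem hevZ_cons (c : ℤ) (cs : List ℤ) (u w : ℝ) :
    hevZ (c :: cs) u w = c * u ^ cs.length + w * hevZ cs u w := by
  simp [hevZ, hev]

theorem hevZ_nil (u w : ℝ) : hevZ [] u w = 0 := by simp [hevZ, hev]

theorem hevZ_addL : ∀ {l m : List ℤ}, l.length = m.length → ∀ u w : ℝ,
    hevZ (addL l m) u w = hevZ l u w + hevZ m u w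
  | [], [], _, u, w => by simp [addL, hevZ_nil]
  | [], _ :: _, h, _, _ => by simp at h
  | _ :: _, [], h, _, _ => by simp at h
  | a :: as, b :: bs, h, u, w => by
    have h' : as.length = bs.length := Nat.succ_injective h
    simp only [addL, hevZ_cons, addL_length h', hevZ_addL h' u w, h']
    push_cast
    ring

theorem hevZ_scaleL (c : ℤ) : ∀ (l : List ℤ) (u w : ℝ), hevZ (scaleL c l) u w = c * hevZ l u w
  | [], u, w => by simp [scaleL, hevZ_nil]
  | a :: as, u, w => by
    have := hevZ_scaleL c as u w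
    simp only [scaleL, List.map_cons, hevZ_cons, List.length_map] at this ⊢
    rw [this]
    push_cast
    ring

theorem hevZ_snoc : ∀ (l : List ℤ) (u w : ℝ), hevZ (l ++ [0]) u w = u * hevZ l u w
  | [], u, w => by simp [hevZ, hev]
  | a :: as, u, w => by
    simp only [List.cons_append, hevZ_cons, hevZ_snoc as u w, List.length_append,
      List.length_cons, List.length_nil]
    ring

theorem mulLin_length (α β : ℤ) (l : List ℤ) : (mulLin α β l).length = l.length + 1 := by
  rw [mulLin, addL_length (by simp [scaleL])]; simp [scaleL]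

theorem hevZ_mulLin (α β : ℤ) (l : List ℤ) (u w : ℝ) :
    hevZ (mulLin α β l) u w = (α * u + β * w) * hevZ l u w := by
  rw [mulLin, hevZ_addL (by simp [scaleL]), hevZ_snoc, hevZ_cons, hevZ_scaleL, hevZ_scaleL]
  push_cast
  ring

theorem powLin_length (α β : ℤ) : ∀ k, (powLin α β k).length = k + 1
  | 0 => rfl
  | k + 1 => by rw [powLin, mulLin_length, powLin_length α β k]

theorem hevZ_powLin (α β : ℤ) (u w : ℝ) :
    ∀ k, hevZ (powLin α β k) u w = (α * u + β * w) ^ k
  | 0 => by simp [powLin, hevZ, hev]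
  | k + 1 => by rw [powLin, hevZ_mulLin, hevZ_powLin α β u w k, pow_succ']

theorem subst_length (α β γ δ : ℤ) : ∀ l : List ℤ, (subst α β γ δ l).length = l.length
  | [] => rfl
  | [_] => rfl
  | c :: d :: cs => by
    have h := subst_length α β γ δ (d :: cs)
    rw [subst, addL_length (by simp [scaleL, powLin_length, mulLin_length, h])]
    simp [scaleL, powLin_length]

theorem hevZ_subst (α β γ δ : ℤ) (u w x : ℝ) (hx : (γ * u + δ * w) * x = α * u + β * w) :
    ∀ l : List ℤ, hevZ (subst α β γ δ l) u w = (γ * u + δ * w) ^ (l.length - 1) * ev l x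
  | [] => by simp [subst, hevZ_nil, ev]
  | [c] => by simp [subst, hevZ, hev, ev]
  | c :: d :: cs => by
    have h := subst_length α β γ δ (d :: cs)
    rw [subst, hevZ_addL (by simp [scaleL, powLin_length, mulLin_length, h]), hevZ_scaleL,
      hevZ_powLin, hevZ_mulLin, hevZ_subst α β γ δ u w x hx (d :: cs)]
    simp only [List.length_cons, Nat.add_sub_cancel, ev]
    rw [← hx]
    ring

theorem hev_nonneg {u w : ℝ} (hu : 0 ≤ u) (hw : 0 ≤ w) :
    ∀ {l : List ℝ}, (∀ c ∈ l, 0 ≤ c) → 0 ≤ hev l u w
  | [], _ => le_rfl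
  | c :: cs, h => by
    have := hev_nonneg hu hw (l := cs) fun z hz => h z (List.mem_cons_of_mem _ hz)
    have := h c (List.mem_cons_self ..)
    unfold hev
    positivity

/-- All coefficients are nonnegative. -/
def allNN (l : List ℤ) : Bool := l.all (fun z => decide (0 ≤ z))

theorem hevZ_nonneg {u w : ℝ} (hu : 0 ≤ u) (hw : 0 ≤ w) {l : List ℤ} (h : allNN l = true) :
    0 ≤ hevZ l u w :=
  hev_nonneg hu hw fun c hc => by
    obtain ⟨z, hz, rfl⟩ := List.mem_map.1 hc
    exact Int.cast_nonneg (of_decide_eq_true (List.all_eq_true.1 h z hz))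

/-- A closed interval `[a/d, b/d]`, or the half line `[a/d, ∞)` when `b` is `none`. -/
structure Side where
  a : ℤ
  b : Option ℤ
  d : ℤ

/-- Membership. -/
def Side.Mem (S : Side) (x : ℝ) : Prop :=
  (S.a : ℝ) ≤ S.d * x ∧ match S.b with | none => True | some b => (S.d : ℝ) * x ≤ b

def Side.ok (S : Side) : Bool :=
  decide (0 < S.d) && match S.b with | none => true | some b => decide (S.a < b)

/-- The transformed coefficients. -/
def Side.map (S : Side) (l : List ℤ) : List ℤ :=
  match S.b with
  | none => subst S.a 1 S.d 0 l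
  | some b => subst S.a b S.d S.d l

theorem Side.spec (S : Side) (hS : S.ok = true) {x : ℝ} (hx : S.Mem x) :
    ∃ u w K : ℝ, 0 ≤ u ∧ 0 ≤ w ∧ 0 < K ∧
      ∀ l : List ℤ, hevZ (S.map l) u w = K ^ (l.length - 1) * ev l x := by
  rcases S with ⟨a, b, d⟩
  obtain ⟨h1, h2⟩ := hx
  simp only [Side.ok, Bool.and_eq_true, decide_eq_true_eq] at hS
  obtain ⟨hd, hb⟩ := hS
  have hd' : (0 : ℝ) < d := by exact_mod_cast hd
  rcases b with _ | b
  · refine ⟨1, d * x - a, d, zero_le_one, sub_nonneg.2 h1, hd', fun l => ?_⟩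
    simp only [Side.map]
    rw [hevZ_subst a 1 d 0 _ _ x (by push_cast; ring)]
    simp
  · have hab : (a : ℝ) < b := by simp at hb; exact_mod_cast hb
    refine ⟨b - d * x, d * x - a, d * (b - a), sub_nonneg.2 h2, sub_nonneg.2 h1,
      mul_pos hd' (by linarith), fun l => ?_⟩
    simp only [Side.map]
    rw [hevZ_subst a b d d _ _ x (by ring)]
    congr 2
    ring

/-- Check on one side. -/
def check (S : Side) (l : List ℤ) : Bool := S.ok && allNN (S.map l)

theorem ev_nonneg {S : Side} {l : List ℤ} (h : check S l = true) {x : ℝ} (hx : S.Mem x) :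
    0 ≤ ev l x := by
  simp only [check, Bool.and_eq_true] at h
  obtain ⟨u, w, K, hu, hw, hK, e⟩ := S.spec h.1 hx
  have := hevZ_nonneg hu hw h.2
  rw [e] at this
  exact nonneg_of_mul_nonneg_right this (pow_pos hK _)

/-- The columns of a rectangular table. -/
def cols (k : ℕ) : List (List ℤ) → List (List ℤ)
  | [] => List.replicate k []
  | r :: rs => List.zipWith (fun c q => c :: q) r (cols k rs)

theorem hev_zero (k : ℕ) (u w : ℝ) : hev (List.replicate k 0) u w = 0 := by
  induction k with
  | zero => rfl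
  | succ k ih => simp [List.replicate_succ, hev, ih]

theorem hev_comb (t u w : ℝ) : ∀ {r : List ℤ} {C : List (List ℤ)}, r.length = C.length →
    hev ((List.zipWith (fun c q => c :: q) r C).map (ev · t)) u w
      = hevZ r u w + t * hev (C.map (ev · t)) u w
  | [], [], _ => by simp [hevZ, hev]
  | [], _ :: _, h => by simp at h
  | _ :: _, [], h => by simp at h
  | a :: as, q :: qs, h => by
    have h' : as.length = qs.length := Nat.succ_injective h
    simp only [List.zipWith_cons_cons, List.map_cons, hev, hevZ_cons, hev_comb t u w h',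
      List.length_map, List.length_zipWith, h', min_self, ev]
    ring

theorem cols_length {k : ℕ} : ∀ {P : List (List ℤ)}, (∀ r ∈ P, r.length = k) →
    (cols k P).length = k
  | [], _ => by simp [cols]
  | r :: rs, h => by
    simp [cols, cols_length (P := rs) fun z hz => h z (List.mem_cons_of_mem _ hz),
      h r (List.mem_cons_self ..)]

theorem hev_cols {k : ℕ} (S : Side) (t s u w K : ℝ)
    (e : ∀ l : List ℤ, hevZ (S.map l) u w = K ^ (l.length - 1) * ev l s) :
    ∀ {P : List (List ℤ)}, (∀ r ∈ P, r.length = k) → (∀ r ∈ P.map S.map, r.length = k) →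
      hev ((cols k (P.map S.map)).map (ev · t)) u w = K ^ (k - 1) * ev2 P t s
  | [], _, _ => by simp [cols, ev2, ev, hev_zero]
  | r :: rs, hP, hQ => by
    have hr := hP r (List.mem_cons_self ..)
    have hQ' : ∀ z ∈ rs.map S.map, z.length = k := fun z hz =>
      hQ z (by simp only [List.map_cons]; exact List.mem_cons_of_mem _ hz)
    simp only [List.map_cons, cols]
    rw [hev_comb t u w (by rw [cols_length hQ']; exact hQ (S.map r) (by simp)),
      hev_cols S t s u w K e (fun z hz => hP z (List.mem_cons_of_mem _ hz)) hQ', e, hr, ev2]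
    ring

/-- Check on a box. -/
def check2 (k : ℕ) (T S : Side) (P : List (List ℤ)) : Bool :=
  T.ok && S.ok && P.all (fun r => r.length == k) && (P.map S.map).all (fun r => r.length == k)
    && (cols k (P.map S.map)).all (fun c => allNN (T.map c))

theorem ev2_nonneg {k : ℕ} {T S : Side} {P : List (List ℤ)} (h : check2 k T S P = true) {t s : ℝ}
    (ht : T.Mem t) (hs : S.Mem s) : 0 ≤ ev2 P t s := by
  simp only [check2, Bool.and_eq_true, List.all_eq_true, beq_iff_eq] at h
  obtain ⟨⟨⟨⟨hT, hS⟩, hl⟩, hl'⟩, hc⟩ := h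
  obtain ⟨u, w, K, hu, hw, hK, e⟩ := S.spec hS hs
  have hnn : 0 ≤ hev ((cols k (P.map S.map)).map (ev · t)) u w :=
    hev_nonneg hu hw fun z hz => by
      obtain ⟨c, hcc, rfl⟩ := List.mem_map.1 hz
      exact ev_nonneg (by simp [check, hT, hc c hcc]) ht
  rw [hev_cols S t s u w K e hl hl'] at hnn
  exact nonneg_of_mul_nonneg_right hnn (pow_pos hK _)

/-- The coefficientwise primitive functional: `Σ cᵢ Jᵢ`. -/
def dotSeq : List ℤ → (ℕ → ℝ) → ℝ
  | [], _ => 0
  | c :: cs, J => c * J 0 + dotSeq cs (fun i => J (i + 1))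

end Vale.Agent.P219.PosCheck
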