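import Vale.Agent.P219.Cert.SevenExact
import Vale.Agent.P219.Cert.Marginal

/-!
# P219 module Cert7.Moment: the moment of the multiplier in dimension seven

`∫ (1-c²)² c φ(c)` over `[0,1]` has a closed primitive: integrate the primitives of the interior
term by parts; the kernel part becomes an exact derivative (the divergence identity on the ball).
-/

open Set MeasureTheory

namespace Vale.Agent.P219.Seven

/-- `∫_c^1 (1-x²)²`. -/
noncomputable def rest0 (c : ℝ) : ℝ := 8 / 15 - c + 2 / 3 * c ^ 3 - 1 / 5 * c ^ 5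

/-- `∫_c^1 x (1-x²)²`. -/
noncomputable def rest1 (c : ℝ) : ℝ := 1 / 6 - 1 / 2 * c ^ 2 + 1 / 2 * c ^ 4 - 1 / 6 * c ^ 6

/-- `∫_c^1 x² (1-x²)²`. -/
noncomputable def rest2 (c : ℝ) : ℝ := 8 / 105 - 1 / 3 * c ^ 3 + 2 / 5 * c ^ 5 - 1 / 7 * c ^ 7

/-- `∫_c^1 (1-x²)³`. -/
noncomputable def rest3 (c : ℝ) : ℝ := 16 / 35 - c + c ^ 3 - 3 / 5 * c ^ 5 + 1 / 7 * c ^ 7

/-- The polynomial part of the primitive. -/
noncomputable def polyPart (c : ℝ) : ℝ :=
  7 / 30 * c ^ 3 - 4 / 75 * c ^ 4 - 7 / 50 * c ^ 5 - 1 / 25 * c ^ 6 - 11999 / 110250 * c ^ 7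
    + 541 / 2100 * c ^ 8 - 1 / 50 * c ^ 9 - 1019 / 7875 * c ^ 10 + 1 / 25 * c ^ 11
    + 247 / 15750 * c ^ 12

/-- A primitive of `(1-c²)² c φ(c)`. -/
noncomputable def momPrim (c : ℝ) : ℝ :=
  polyPart c + rest0 c * prim7 e0 (2 * c) + rest1 c * prim7 e1 (2 * c) + rest2 c * prim7 e2 (2 * c)
    - c ^ 2 * numG (2 * c) * rest3 c / (504000 * (1 + c) ^ 3)

theorem mul_phi (c : ℝ) :
    c * phi c = c ^ 2 - c ^ 2 * qpoly (2 * c) c / 300
      - (prim7 e0 (2 * c) + c * prim7 e1 (2 * c) + c ^ 2 * prim7 e2 (2 * c)) := by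
  by_cases hc : c = 0
  · subst hc; simp [prim7_zero]
  · simp only [phi, inner7]
    field_simp

theorem hasDerivAt_momPrim {c : ℝ} (hc : 0 ≤ c) :
    HasDerivAt momPrim ((1 - c ^ 2) ^ 2 * (c * phi c)) c := by
  have hu : (1 + c) ≠ 0 := by linarith
  have hPP : HasDerivAt polyPart (deriv polyPart c) c :=
    DifferentiableAt.hasDerivAt (by unfold polyPart; fun_prop)
  have h0 : HasDerivAt rest0 (deriv rest0 c) c :=
    DifferentiableAt.hasDerivAt (by unfold rest0; fun_prop)
  have h1 : HasDerivAt rest1 (deriv rest1 c) c :=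
    DifferentiableAt.hasDerivAt (by unfold rest1; fun_prop)
  have h2 : HasDerivAt rest2 (deriv rest2 c) c :=
    DifferentiableAt.hasDerivAt (by unfold rest2; fun_prop)
  have hN : HasDerivAt (fun x => x ^ 2 * numG (2 * x) * rest3 x)
      (deriv (fun x => x ^ 2 * numG (2 * x) * rest3 x) c) c :=
    DifferentiableAt.hasDerivAt (by unfold numG rest3; fun_prop)
  have h := (((hPP.add (h0.mul (hasDerivAt_prim7_two continuous_e0 c))).add
    (h1.mul (hasDerivAt_prim7_two continuous_e1 c))).add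
    (h2.mul (hasDerivAt_prim7_two continuous_e2 c))).sub
    (hN.div ((((hasDerivAt_id' c).const_add 1).pow 3).const_mul 504000)
      (mul_ne_zero (by norm_num) (pow_ne_zero 3 hu)))
  refine h.congr_deriv ?_
  rw [mul_phi]
  simp only [dens7, abs_of_nonneg (by linarith : (0 : ℝ) ≤ 2 * c),
    show 2 + 2 * c = 2 * (1 + c) by ring]
  unfold polyPart rest0 rest1 rest2 rest3 numG e0 e1 e2 qpoly q0 q1 q2
  simp (disch := fun_prop)
  field_simp
  ring_nf

/-- The moment of the multiplier. -/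
theorem moment_phi :
    ∫ c in (0 : ℝ)..1, (1 - c ^ 2) ^ 2 * (c * phi c) = 12143 / 220500 := by
  rw [intervalIntegral.integral_eq_sub_of_hasDerivAt
    (fun c hc => hasDerivAt_momPrim (by simpa using (uIcc_of_le (zero_le_one' ℝ) ▸ hc).1))
    (((by fun_prop : Continuous fun c : ℝ => (1 - c ^ 2) ^ 2).mul
      (continuous_id.mul continuous_phi)).intervalIntegrable 0 1)]
  simp only [momPrim, polyPart, rest0, rest1, rest2, rest3, mul_zero, prim7_zero]
  norm_num

/-- The polar angle integral as an integral in the cosine. -/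
theorem integral_sin_pow_five {g : ℝ → ℝ} (hg : Continuous g) :
    ∫ θ in (0 : ℝ)..Real.pi, Real.sin θ ^ 5 * g (Real.cos θ)
      = ∫ x in (-1 : ℝ)..1, (1 - x ^ 2) ^ 2 * g x := by
  have h := intervalIntegral.integral_comp_mul_deriv
    (f := Real.cos) (f' := fun θ => -Real.sin θ) (g := fun x => (1 - x ^ 2) ^ 2 * g x)
    (a := 0) (b := Real.pi) (fun θ _ => Real.hasDerivAt_cos θ)
    Real.continuous_sin.neg.continuousOn (by fun_prop)
  rw [Real.cos_zero, Real.cos_pi, intervalIntegral.integral_symm (-1 : ℝ) 1] at h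
  have e : (∫ θ in (0 : ℝ)..Real.pi,
      ((fun x => (1 - x ^ 2) ^ 2 * g x) ∘ Real.cos) θ * -Real.sin θ)
        = -∫ θ in (0 : ℝ)..Real.pi, Real.sin θ ^ 5 * g (Real.cos θ) := by
    rw [← intervalIntegral.integral_neg]
    refine intervalIntegral.integral_congr fun θ _ => ?_
    simp only [Function.comp_apply, ← Real.sin_sq θ]
    ring
  linarith

/-- The clamped integrand. -/
noncomputable def clampMul (x : ℝ) : ℝ := min 1 (max x 0) * phi (min 1 (max x 0))

theorem continuous_clampMul : Continuous clampMul :=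
  (by fun_prop : Continuous fun x : ℝ => min 1 (max x 0)).mul
    (continuous_phi.comp (by fun_prop))

theorem exists_bound_clampMul : ∃ B, ∀ x, |clampMul x| ≤ B := by
  obtain ⟨B, hB⟩ := (isCompact_Icc (a := (0 : ℝ)) (b := 1)).exists_bound_of_continuousOn
    (continuous_id.mul continuous_phi).continuousOn
  exact ⟨B, fun x => hB _ ⟨le_min zero_le_one (le_max_right _ _), min_le_left _ _⟩⟩

/-- The ball moment of the multiplier. -/
theorem ball_phi :
    ∫ v in Metric.closedBall (0 : EE 7) 1, clampMul (v 0 / ‖v‖)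
      = 12143 / 235200 * omega 7 := by
  obtain ⟨B, hB⟩ := exists_bound_clampMul
  have h1 := integral_ball_marginal 6 (ψ := fun _ => (1 : ℝ)) measurable_const (B := 1)
    fun c => by simp
  have h2 := integral_ball_marginal 6 continuous_clampMul.measurable hB
  rw [show (6 : ℕ) - 1 = 5 from rfl, integral_sin_pow_five continuous_const] at h1
  rw [show (6 : ℕ) - 1 = 5 from rfl, integral_sin_pow_five continuous_clampMul] at h2
  have hw : ∫ x in (-1 : ℝ)..1, (1 - x ^ 2) ^ 2 * (1 : ℝ) = 16 / 15 := by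
    have hd : ∀ x ∈ uIcc (-1 : ℝ) 1,
        HasDerivAt (fun x : ℝ => x - 2 / 3 * x ^ 3 + 1 / 5 * x ^ 5) ((1 - x ^ 2) ^ 2 * 1) x := by
      intro x _
      refine (((hasDerivAt_id' x).sub ((hasDerivAt_pow 3 x).const_mul (2 / 3))).add
        ((hasDerivAt_pow 5 x).const_mul (1 / 5))).congr_deriv ?_
      push_cast
      ring
    rw [intervalIntegral.integral_eq_sub_of_hasDerivAt hd
      ((by fun_prop : Continuous fun x : ℝ => (1 - x ^ 2) ^ 2 * 1).intervalIntegrable _ _)]
    norm_num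
  have hc : Continuous fun x : ℝ => (1 - x ^ 2) ^ 2 * clampMul x :=
    (by fun_prop : Continuous fun x : ℝ => (1 - x ^ 2) ^ 2).mul continuous_clampMul
  have hM : ∫ x in (-1 : ℝ)..1, (1 - x ^ 2) ^ 2 * clampMul x = 12143 / 220500 := by
    rw [← intervalIntegral.integral_add_adjacent_intervals (b := (0 : ℝ))
      (hc.intervalIntegrable _ _) (hc.intervalIntegrable _ _)]
    have e0 : ∫ x in (-1 : ℝ)..0, (1 - x ^ 2) ^ 2 * clampMul x = 0 := by
      refine (intervalIntegral.integral_congr (g := fun _ : ℝ => (0 : ℝ)) fun x hx => ?_).trans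
        intervalIntegral.integral_zero
      rw [uIcc_of_le (by norm_num : (-1 : ℝ) ≤ 0)] at hx
      simp [clampMul, max_eq_right hx.2]
    rw [e0, zero_add, ← moment_phi]
    refine intervalIntegral.integral_congr fun x hx => ?_
    rw [uIcc_of_le zero_le_one] at hx
    simp [clampMul, max_eq_left hx.1, min_eq_right hx.2]
  have hvol : ∫ _v in Metric.closedBall (0 : EE 7) 1, (1 : ℝ) = omega 7 := by
    simp [omega, measureReal_def]
  rw [hw, hvol] at h1
  rw [hM] at h2
  rw [h2, h1]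
  push_cast
  ring

end Vale.Agent.P219.Seven
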