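import Vale.Agent.P219.Cert
import Vale.Agent.P219.Cert.Glue
import Vale.Agent.P219.Cert.SevenMoment

/-!
# P219 module Cert7: the calibration in dimension seven

`F = (30+8t+3t²)/(1200t²)` on the boundary with `α = 3/80`;
`G = (50400-31920t+27720t²+28980t³-336t⁴-244t⁵+741t⁶)/(252000t⁴(2+t)³)` inside with
`β = 247/33600`; both cut off below `η`, at cost `42 η`.
-/

open Set MeasureTheory

namespace Vale.Agent.P219.Seven

/-- The slope numerator of the interior weight. -/
noncomputable def numD (t : ℝ) : ℝ :=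
  (t * (-31920 + 55440 * t + 86940 * t ^ 2 - 1344 * t ^ 3 - 1220 * t ^ 4 + 4446 * t ^ 5)
    - 4 * numG t) * (2 + t) - 3 * t * numG t

theorem hasDerivAt_numG (t : ℝ) :
    HasDerivAt numG
      (-31920 + 55440 * t + 86940 * t ^ 2 - 1344 * t ^ 3 - 1220 * t ^ 4 + 4446 * t ^ 5) t := by
  have h : (-31920 + 55440 * t + 86940 * t ^ 2 - 1344 * t ^ 3 - 1220 * t ^ 4 + 4446 * t ^ 5)
      = deriv numG t := by
    unfold numG
    simp (disch := fun_prop)
    ring
  rw [h]
  exact DifferentiableAt.hasDerivAt (by unfold numG; fun_prop)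

/-- The boundary weight. -/
noncomputable def bdryRaw : RawWeight where
  W := fun t => (30 + 8 * t + 3 * t ^ 2) / (1200 * t ^ 2)
  dW := fun t => -(60 + 8 * t) / (1200 * t ^ 3)
  Φ := fun x => (30 * x ^ 2 + 8 * x + 3) / 1200
  Ψ := fun x => -(60 * x ^ 3 + 8 * x ^ 2) / 1200
  hasDeriv := fun t ht => by
    have hp : HasDerivAt (fun s : ℝ => 30 + 8 * s + 3 * s ^ 2) (8 + 6 * t) t := by
      refine ((((hasDerivAt_id' t).const_mul 8).const_add 30).add
        ((hasDerivAt_pow 2 t).const_mul 3)).congr_deriv ?_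
      push_cast; ring
    refine (hp.div ((hasDerivAt_pow 2 t).const_mul 1200) (by positivity)).congr_deriv ?_
    push_cast
    field_simp
    ring
  cont := fun t ht => ContinuousAt.div (by fun_prop) (by fun_prop) (by positivity)
  nonneg := fun t ht => by positivity
  eqΦ := fun t ht => by field_simp
  eqΨ := fun t ht => by field_simp
  contΦ := (by fun_prop : Continuous fun x : ℝ => (30 * x ^ 2 + 8 * x + 3) / 1200).continuousOn
  contΨ := (by fun_prop : Continuous fun x : ℝ =>
    -(60 * x ^ 3 + 8 * x ^ 2) / 1200).continuousOn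

/-- The interior weight. -/
noncomputable def innerRaw : RawWeight where
  W := fun t => numG t / (252000 * t ^ 4 * (2 + t) ^ 3)
  dW := fun t => numD t / (252000 * t ^ 5 * (2 + t) ^ 4)
  Φ := fun x => (50400 * x ^ 7 - 31920 * x ^ 6 + 27720 * x ^ 5 + 28980 * x ^ 4 - 336 * x ^ 3
    - 244 * x ^ 2 + 741 * x) / (252000 * (2 * x + 1) ^ 3)
  Ψ := fun x => (((-31920) * x ^ 6 + 55440 * x ^ 5 + 86940 * x ^ 4 - 1344 * x ^ 3 - 1220 * x ^ 2
      + 4446 * x - 4 * (50400 * x ^ 7 - 31920 * x ^ 6 + 27720 * x ^ 5 + 28980 * x ^ 4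
        - 336 * x ^ 3 - 244 * x ^ 2 + 741 * x)) * (2 * x + 1)
      - 3 * (50400 * x ^ 7 - 31920 * x ^ 6 + 27720 * x ^ 5 + 28980 * x ^ 4 - 336 * x ^ 3
        - 244 * x ^ 2 + 741 * x)) * x / (252000 * (2 * x + 1) ^ 4)
  hasDeriv := fun t ht => by
    have hu : (2 + t) ≠ 0 := by linarith
    have hden := ((hasDerivAt_pow 4 t).const_mul 252000).mul
      (((hasDerivAt_id' t).const_add 2).pow 3)
    refine ((hasDerivAt_numG t).div hden ?_).congr_deriv ?_
    · simp [hu, ht.ne']
    · simp only [numD, Pi.pow_apply, Pi.mul_apply]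
      push_cast
      field_simp
      ring
  cont := fun t ht =>
    ContinuousAt.div (by unfold numD numG; fun_prop) (by fun_prop) (by positivity)
  nonneg := fun t ht => div_nonneg (numG_pos ht.le).le (by positivity)
  eqΦ := fun t ht => by
    have : (2 + t) ≠ 0 := by linarith
    rw [numG, show 2 * t⁻¹ + 1 = (2 + t) / t by field_simp]
    field_simp
  eqΨ := fun t ht => by
    have : (2 + t) ≠ 0 := by linarith
    rw [numD, numG, show 2 * t⁻¹ + 1 = (2 + t) / t by field_simp]
    field_simp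
  contΦ := ContinuousOn.div (by fun_prop) (by fun_prop) fun x hx => by
    have : 0 < 2 * x + 1 := by linarith [show (0 : ℝ) ≤ x from hx]
    positivity
  contΨ := ContinuousOn.div (by fun_prop) (by fun_prop) fun x hx => by
    have : 0 < 2 * x + 1 := by linarith [show (0 : ℝ) ≤ x from hx]
    positivity

/-- The facts about a raw weight needed near the origin. -/
structure NearZero (A : RawWeight) (η : ℝ) : Prop where
  slope : A.dW η ≤ 0
  steep : -(43 / 10) * A.W η ≤ η * A.dW η

theorem nearZero_bdry {η : ℝ} (h : 0 < η) : NearZero bdryRaw η where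
  slope := by
    show -(60 + 8 * η) / (1200 * η ^ 3) ≤ 0
    exact div_nonpos_of_nonpos_of_nonneg (by linarith) (by positivity)
  steep := by
    have e : η * bdryRaw.dW η + 43 / 10 * bdryRaw.W η
        = (690 + 264 * η + 129 * η ^ 2) / (12000 * η ^ 2) := by
      simp only [bdryRaw]; field_simp; ring
    have : 0 ≤ (690 + 264 * η + 129 * η ^ 2) / (12000 * η ^ 2) := by positivity
    linarith

theorem near_small {η : ℝ} (h : 0 < η) (h1 : η ≤ 1 / 50) :
    48000 ≤ numG η ∧ numG η ≤ 51000 ∧ numD η ≤ 0 ∧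
      0 ≤ numD η + 43 / 10 * numG η * (2 + η) := by
  have p2 : η ^ 2 ≤ 1 / 50 * η := by nlinarith
  have p3 : η ^ 3 ≤ η ^ 2 := pow_le_pow_of_le_one h.le (by linarith) (by norm_num)
  have p4 : η ^ 4 ≤ η ^ 2 := pow_le_pow_of_le_one h.le (by linarith) (by norm_num)
  have p5 : η ^ 5 ≤ η ^ 2 := pow_le_pow_of_le_one h.le (by linarith) (by norm_num)
  have p6 : η ^ 6 ≤ η ^ 2 := pow_le_pow_of_le_one h.le (by linarith) (by norm_num)
  have p7 : η ^ 7 ≤ η ^ 2 := pow_le_pow_of_le_one h.le (by linarith) (by norm_num)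
  have n2 := pow_nonneg h.le 2
  have n3 := pow_nonneg h.le 3
  have n4 := pow_nonneg h.le 4
  have n5 := pow_nonneg h.le 5
  have n6 := pow_nonneg h.le 6
  have n7 := pow_nonneg h.le 7
  refine ⟨?_, ?_, ?_, ?_⟩
  · unfold numG; linarith
  · unfold numG; linarith
  · unfold numD numG; ring_nf; linarith
  · unfold numD numG; ring_nf; linarith

theorem nearZero_inner {η : ℝ} (h : 0 < η) (h1 : η ≤ 1 / 50) : NearZero innerRaw η where
  slope := by
    show numD η / (252000 * η ^ 5 * (2 + η) ^ 4) ≤ 0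
    exact div_nonpos_of_nonpos_of_nonneg (near_small h h1).2.2.1 (by positivity)
  steep := by
    have e : η * innerRaw.dW η + 43 / 10 * innerRaw.W η
        = (numD η + 43 / 10 * numG η * (2 + η)) / (252000 * η ^ 4 * (2 + η) ^ 4) := by
      simp only [innerRaw]; field_simp
    have : 0 ≤ (numD η + 43 / 10 * numG η * (2 + η)) / (252000 * η ^ 4 * (2 + η) ^ 4) :=
      div_nonneg (near_small h h1).2.2.2 (by positivity)
    linarith

theorem cut_K_nonneg {A : RawWeight} {η t c : ℝ} (h : 0 < η) (h1 : η ≤ 1 / 50)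
    (N : NearZero A η) (ht0 : 0 ≤ t) (ht : t ≤ η) (hc : c ∈ Icc (-1 : ℝ) 1) :
    0 ≤ (A.cut η h N.slope).K 7 t c := by
  rw [RawWeight.cut_K_le h N.slope 7 ht c]
  obtain ⟨hB, hA⟩ := RawWeight.lin_cub_bound h N.slope
  set L := A.lin η with hL
  set B := A.cub η with hB'
  have t2 : t ^ 2 ≤ η ^ 2 := pow_le_pow_left₀ ht0 ht 2
  have b1 : B * η ^ 2 ≤ B * t ^ 2 := mul_le_mul_of_nonpos_left t2 hB
  have f0 : 0 ≤ L + B * t ^ 2 := by
    have := RawWeight.cutf_nonneg (A := A) h N.slope ht0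
    rwa [RawWeight.cutf_le ht] at this
  have lin_le : c * (L * t + B * t ^ 3) ≤ η * L := by
    rw [show c * (L * t + B * t ^ 3) = (c * t) * (L + B * t ^ 2) by ring]
    have hct : c * t ≤ η := (mul_le_of_le_one_left ht0 hc.2).trans ht
    refine (mul_le_mul_of_nonneg_right hct f0).trans (mul_le_mul_of_nonneg_left ?_ h.le)
    linarith [mul_nonpos_of_nonpos_of_nonneg hB (sq_nonneg t)]
  have quad : c ^ 2 * (2 * B * t ^ 2) ≤ 0 :=
    mul_nonpos_of_nonneg_of_nonpos (sq_nonneg c)
      (mul_nonpos_of_nonpos_of_nonneg (by linarith) (sq_nonneg t))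
  have key : 0 ≤ 6 * L + 8 * B * η ^ 2 - 6 * (η * L) := by
    have e : 6 * L + 8 * B * η ^ 2 - 6 * (η * L)
        = ((5 - 9 * η) * A.W η + (1 + 3 * η) * (η * A.dW η)) / η := by
      simp only [hL, hB', RawWeight.lin, RawWeight.cub]; field_simp; ring
    rw [e]
    refine div_nonneg ?_ h.le
    have h3 := mul_le_mul_of_nonneg_left N.steep (by linarith : (0 : ℝ) ≤ 1 + 3 * η)
    have h4 := mul_nonneg (by linarith : (0 : ℝ) ≤ 7 / 10 - 219 / 10 * η) (A.nonneg η h)
    linarith
  push_cast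
  linarith

/-- The cut boundary weight. -/
noncomputable def bdryW (η : ℝ) (h : 0 < η) : Radial := bdryRaw.cut η h (nearZero_bdry h).slope

/-- The cut interior weight. -/
noncomputable def innerW (η : ℝ) (h : 0 < η) (h1 : η ≤ 1 / 50) : Radial :=
  innerRaw.cut η h (nearZero_inner h h1).slope

theorem bdryW_ge {η t : ℝ} (h : 0 < η) (ht : η ≤ t) (c : ℝ) :
    3 / 80 + (bdryW η h).K 7 t c = qpoly t c / (1200 * t ^ 3) := by
  have : t ≠ 0 := (h.trans_le ht).ne'
  rw [bdryW, RawWeight.cut_K_ge h _ 7 ht c]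
  simp only [bdryRaw, qpoly, q0, q1, q2]
  push_cast
  field_simp
  ring

theorem innerW_ge {η t : ℝ} (h : 0 < η) (h1 : η ≤ 1 / 50) (ht : η ≤ t) (c : ℝ) :
    247 / 33600 + (innerW η h h1).K 7 t c
      = epoly t c / (252000 * t ^ 5 * (2 + t) ^ 4) := by
  have ht0 : 0 < t := h.trans_le ht
  have : (2 + t) ≠ 0 := by linarith
  rw [innerW, RawWeight.cut_K_ge h _ 7 ht c]
  simp only [innerRaw, numD, numG, epoly, e0, e1, e2]
  push_cast
  field_simp
  ring

theorem bdryW_nonneg {η t c : ℝ} (h : 0 < η) (h1 : η ≤ 1 / 50) (ht : 0 ≤ t)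
    (hc : c ∈ Icc (-1 : ℝ) 1) : 0 ≤ 3 / 80 + (bdryW η h).K 7 t c := by
  rcases le_total t η with hle | hle
  · linarith [show 0 ≤ (bdryW η h).K 7 t c from cut_K_nonneg h h1 (nearZero_bdry h) ht hle hc]
  · rw [bdryW_ge h hle]
    exact div_nonneg (qpoly_nonneg ht hc) (by positivity)

theorem innerW_nonneg {η t c : ℝ} (h : 0 < η) (h1 : η ≤ 1 / 50) (ht : 0 ≤ t)
    (hc : c ∈ Icc (-1 : ℝ) 1) : 0 ≤ 247 / 33600 + (innerW η h h1).K 7 t c := by
  rcases le_total t η with hle | hle
  · linarith [show 0 ≤ (innerW η h h1).K 7 t c from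
      cut_K_nonneg h h1 (nearZero_inner h h1) ht hle hc]
  · rw [innerW_ge h h1 hle]
    exact div_nonneg (epoly_nonneg ht hc) (by positivity)

theorem integral_dens7_le {e : ℝ → ℝ} (he : Continuous e) {η M : ℝ} (h : 0 < η)
    (hb : ∀ r ∈ Icc 0 η, e r ≤ M) (hM : 0 ≤ M) :
    prim7 e η ≤ M / (252000 * 16) * (η ^ 2 / 2) := by
  have hint : ∫ r in (0 : ℝ)..η, M / (252000 * 16) * r = M / (252000 * 16) * (η ^ 2 / 2) := by
    rw [intervalIntegral.integral_const_mul, integral_id]; ring
  rw [← hint]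
  refine intervalIntegral.integral_mono_on h.le ((continuous_dens7 he).intervalIntegrable _ _)
    ((by fun_prop : Continuous fun r : ℝ => M / (252000 * 16) * r).intervalIntegrable _ _)
    fun r hr => ?_
  have h16 : (16 : ℝ) ≤ (2 + |r|) ^ 4 := by
    calc (16 : ℝ) = 2 ^ 4 := by norm_num
      _ ≤ _ := pow_le_pow_left₀ (by norm_num) (le_add_of_nonneg_right (abs_nonneg r)) 4
  calc dens7 e r ≤ r * M / (252000 * (2 + |r|) ^ 4) :=
        div_le_div_of_nonneg_right (mul_le_mul_of_nonneg_left (hb r hr) hr.1) (den7_pos r).le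
    _ ≤ r * M / (252000 * 16) :=
        div_le_div_of_nonneg_left (mul_nonneg hr.1 hM) (by norm_num) (by linarith)
    _ = _ := by ring

/-- The part of the interior term below `η` loses at most `2η`. -/
theorem inner_low {η a : ℝ} (h : 0 < η) (h1 : η ≤ 1 / 50) (ha : a ∈ Ioc (0 : ℝ) 1) :
    inner7 η a - 2 * η
      ≤ (∫ r in (0 : ℝ)..η, r ^ 6 * (247 / 33600 + (innerW η h h1).K 7 r a)) / a := by
  obtain ⟨hB, hA⟩ := RawWeight.lin_cub_bound h (nearZero_inner h h1).slope
  obtain ⟨g1, g2, g3, g4⟩ := near_small h h1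
  set L := innerRaw.lin η with hL
  set B := innerRaw.cub η with hB'
  have heq : ∫ r in (0 : ℝ)..η, r ^ 6 * (247 / 33600 + (innerW η h h1).K 7 r a)
      = ((247 / 33600 + 6 * L) * η ^ 7 / 7 + 8 * B * η ^ 9 / 9)
        - a * (6 * L * η ^ 8 / 8 + 6 * B * η ^ 10 / 10) - a ^ 2 * (2 * B * η ^ 9 / 9) := by
    have hd : ∀ r : ℝ, HasDerivAt
        (fun r : ℝ => (247 / 33600 + 6 * L) * r ^ 7 / 7 + 8 * B * r ^ 9 / 9
          - a * (6 * L * r ^ 8 / 8 + 6 * B * r ^ 10 / 10) - a ^ 2 * (2 * B * r ^ 9 / 9))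
        (r ^ 6 * ((247 / 33600 + 6 * L + 8 * B * r ^ 2) - a * (6 * (L * r + B * r ^ 3))
          - a ^ 2 * (2 * B * r ^ 2))) r := by
      intro r
      refine ((((((hasDerivAt_pow 7 r).const_mul _).div_const 7).add
        (((hasDerivAt_pow 9 r).const_mul _).div_const 9)).sub
        (((((hasDerivAt_pow 8 r).const_mul _).div_const 8).add
          (((hasDerivAt_pow 10 r).const_mul _).div_const 10)).const_mul a)).sub
        ((((hasDerivAt_pow 9 r).const_mul _).div_const 9).const_mul (a ^ 2))).congr_deriv ?_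
      push_cast
      ring
    have key := intervalIntegral.integral_eq_sub_of_hasDerivAt (a := (0 : ℝ)) (b := η)
      (fun r _ => hd r) ((by fun_prop : Continuous fun r : ℝ =>
        r ^ 6 * ((247 / 33600 + 6 * L + 8 * B * r ^ 2) - a * (6 * (L * r + B * r ^ 3))
          - a ^ 2 * (2 * B * r ^ 2))).intervalIntegrable _ _)
    refine Eq.trans (intervalIntegral.integral_congr fun r hr => ?_) (key.trans ?_)
    · rw [uIcc_of_le h.le] at hr
      simp only [innerW, RawWeight.cut_K_le h _ 7 hr.2 a, ← hL, ← hB']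
      push_cast
      ring
    · ring
  -- the three coefficients against the exact ones
  set g := η ^ 4 * innerRaw.W η with hg
  set d := η ^ 5 * innerRaw.dW η with hd'
  have hL5 : L * η ^ 5 = (3 * g - d) / 2 := by
    simp only [hL, hg, hd', RawWeight.lin]; field_simp
  have hB7 : B * η ^ 7 = (d - g) / 2 := by
    simp only [hB', hg, hd', RawWeight.cub]; field_simp
  have hdlow : -(43 / 10) * g ≤ d := by
    have := mul_le_mul_of_nonneg_left (nearZero_inner h h1).steep (pow_nonneg h.le 4)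
    simp only [hg, hd']
    linarith
  have u3 : (2 + η) ^ 3 ≤ (202 / 100 : ℝ) ^ 3 :=
    pow_le_pow_left₀ (by linarith) (by linarith) 3
  have l3 : (2 : ℝ) ^ 3 ≤ (2 + η) ^ 3 := pow_le_pow_left₀ (by norm_num) (by linarith) 3
  have eg : g = numG η / (252000 * (2 + η) ^ 3) := by
    simp only [hg, innerRaw]; field_simp
  have glow : 22 / 1000 ≤ g := by
    rw [eg, le_div_iff₀ (by positivity)]; linarith
  have ghigh : g ≤ 3 / 100 := by
    rw [eg, div_le_iff₀ (by positivity)]; linarith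
  -- constant coefficient
  have j0 : prim7 e0 η ≤ (247 / 33600 + 6 * L) * η ^ 7 / 7 + 8 * B * η ^ 9 / 9 := by
    have hJ := integral_dens7_le continuous_e0 h (M := 100800) (fun r hr => by
      have q1 : r ≤ 1 / 50 := hr.2.trans h1
      have p2 : r ^ 2 ≤ 1 / 50 * r := by nlinarith [hr.1]
      have hr1 : r ≤ 1 := by linarith
      have p3 : r ^ 3 ≤ r ^ 2 := pow_le_pow_of_le_one hr.1 hr1 (by norm_num)
      have p4 : r ^ 4 ≤ r ^ 2 := pow_le_pow_of_le_one hr.1 hr1 (by norm_num)
      have p5 : r ^ 5 ≤ r ^ 2 := pow_le_pow_of_le_one hr.1 hr1 (by norm_num)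
      have p6 : r ^ 6 ≤ r ^ 2 := pow_le_pow_of_le_one hr.1 hr1 (by norm_num)
      have p7 : r ^ 7 ≤ r ^ 2 := pow_le_pow_of_le_one hr.1 hr1 (by norm_num)
      have p8 : r ^ 8 ≤ r ^ 2 := pow_le_pow_of_le_one hr.1 hr1 (by norm_num)
      have p9 : r ^ 9 ≤ r ^ 2 := pow_le_pow_of_le_one hr.1 hr1 (by norm_num)
      unfold e0
      linarith [hr.1]) (by norm_num)
    have e : (247 / 33600 + 6 * L) * η ^ 7 / 7 + 8 * B * η ^ 9 / 9
        = 247 / 235200 * η ^ 7 + η ^ 2 * (6 / 7 * (L * η ^ 5) + 8 / 9 * (B * η ^ 7)) := by ring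
    rw [e, hL5, hB7]
    have hq : (1 / 80 : ℝ) ≤ 6 / 7 * ((3 * g - d) / 2) + 8 / 9 * ((d - g) / 2) := by linarith
    have h2 := mul_le_mul_of_nonneg_left hq (sq_nonneg η)
    have : 0 ≤ η ^ 7 := by positivity
    linarith
  -- linear coefficient
  have j1 : prim7 e1 η ≤ 0 := by
    have h0 := integral_dens7_le continuous_e1 h (M := 0) (fun r hr => e1_nonpos hr.1) le_rfl
    simpa using h0
  have l1 : 6 * L * η ^ 8 / 8 + 6 * B * η ^ 10 / 10 ≤ η := by
    have hBn : B * η ^ 10 ≤ 0 := mul_nonpos_of_nonpos_of_nonneg hB (by positivity)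
    have e : 6 * L * η ^ 8 / 8 = 6 / 8 * (L * η ^ 5) * η ^ 3 := by ring
    have h5 : L * η ^ 5 ≤ 1 / 5 := by rw [hL5]; linarith
    have h3 : η ^ 3 ≤ η := by nlinarith [pow_le_one₀ h.le (by linarith : η ≤ 1) (n := 2)]
    have h0 : 0 ≤ L * η ^ 5 := mul_nonneg hA (by positivity)
    have := mul_le_mul (mul_le_mul_of_nonneg_left h5 (by norm_num : (0 : ℝ) ≤ 6 / 8)) h3
      (by positivity) (by norm_num)
    linarith
  -- quadratic coefficient
  have j2 : prim7 e2 η ≤ η := by
    have h0 := integral_dens7_le continuous_e2 h (M := 4032000) (fun r hr => by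
      have hr1 : r ≤ 1 := by linarith [hr.2]
      have p : ∀ k : ℕ, r ^ k ≤ 1 := fun k => pow_le_one₀ hr.1 hr1
      have n : ∀ k : ℕ, 0 ≤ r ^ k := fun k => pow_nonneg hr.1 k
      unfold e2
      linarith [p 3, p 4, p 7, n 2, n 5, n 6]) (by norm_num)
    refine h0.trans ?_
    nlinarith
  have hB9 : a ^ 2 * (2 * B * η ^ 9 / 9) ≤ 0 := by
    have : B * η ^ 9 ≤ 0 := mul_nonpos_of_nonpos_of_nonneg hB (by positivity)
    refine mul_nonpos_of_nonneg_of_nonpos (sq_nonneg a) ?_
    linarith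
  rw [heq, inner7, le_div_iff₀ ha.1]
  have e : (prim7 e0 η / a + prim7 e1 η + a * prim7 e2 η - 2 * η) * a
      = prim7 e0 η + a * prim7 e1 η + a * (a * prim7 e2 η) - 2 * η * a := by
    have := ha.1.ne'
    field_simp
  rw [e]
  have h11 := mul_le_mul_of_nonneg_left l1 ha.1.le
  have h12 := mul_le_mul_of_nonneg_left j1 ha.1.le
  have h13 : a * (a * prim7 e2 η) ≤ a * η := by
    refine mul_le_mul_of_nonneg_left ?_ ha.1.le
    nlinarith [mul_le_mul_of_nonneg_left j2 ha.1.le, mul_le_of_le_one_left h.le ha.2]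
  linarith

/-- The interior term of the cut weight against the exact one. -/
theorem inner_all {η t a : ℝ} (h : 0 < η) (h1 : η ≤ 1 / 50) (ht : η ≤ t)
    (ha : a ∈ Ioc (0 : ℝ) 1) :
    inner7 t a - 2 * η
      ≤ (∫ r in (0 : ℝ)..t, r ^ 6 * (247 / 33600 + (innerW η h h1).K 7 r a)) / a := by
  set φ : ℝ → ℝ := fun r => r ^ 6 * (247 / 33600 + (innerW η h h1).K 7 r a) with hφ
  have hc : Continuous φ := by
    have := (innerW η h h1).cont_dF
    have := (innerW η h h1).cont_f
    have : Continuous (innerW η h h1).F := continuous_iff_continuousAt.2 fun s =>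
      ((innerW η h h1).hasDeriv s).continuousAt
    simp only [hφ, Radial.K]
    fun_prop
  have hi : ∀ {e : ℝ → ℝ}, Continuous e →
      (∫ r in η..t, dens7 e r) = prim7 e t - prim7 e η := fun he => by
    rw [prim7, prim7, intervalIntegral.integral_interval_sub_left
      ((continuous_dens7 he).intervalIntegrable _ _) ((continuous_dens7 he).intervalIntegrable _ _)]
  have htail : ∫ r in η..t, φ r
      = (prim7 e0 t - prim7 e0 η) + a * (prim7 e1 t - prim7 e1 η)
        + a ^ 2 * (prim7 e2 t - prim7 e2 η) := by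
    rw [← hi continuous_e0, ← hi continuous_e1, ← hi continuous_e2,
      ← intervalIntegral.integral_const_mul, ← intervalIntegral.integral_const_mul]
    have c0 := (continuous_dens7 continuous_e0).intervalIntegrable (μ := volume) η t
    have c1 := ((continuous_dens7 continuous_e1).const_mul a).intervalIntegrable (μ := volume) η t
    have c2 := ((continuous_dens7 continuous_e2).const_mul (a ^ 2)).intervalIntegrable
      (μ := volume) η t
    rw [← intervalIntegral.integral_add c0 c1, ← intervalIntegral.integral_add (c0.add c1) c2]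
    refine intervalIntegral.integral_congr fun r hr => ?_
    rw [uIcc_of_le ht] at hr
    have hr0 : 0 < r := h.trans_le hr.1
    have : (2 + r) ≠ 0 := by linarith
    simp only [hφ, innerW_ge h h1 hr.1, dens7, abs_of_pos hr0, epoly]
    field_simp
  rw [← intervalIntegral.integral_add_adjacent_intervals (b := η)
    (hc.intervalIntegrable _ _) (hc.intervalIntegrable _ _), htail, add_div]
  refine le_trans (le_of_eq ?_) (add_le_add_left (inner_low h h1 ha) _)
  have := ha.1.ne'
  simp only [inner7]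
  field_simp
  ring

/-- The seven-dimensional calibration cut off at `η`. -/
noncomputable def calib (η : ℝ) (h : 0 < η) (h1 : η ≤ 1 / 50) : Calib 7 where
  α := 3 / 80
  β := 247 / 33600
  bdry := bdryW η h
  inner := innerW η h h1
  φ := fun c => phi (min 1 (max c 0)) + 3 * η
  cont_φ := (continuous_phi.comp (by fun_prop)).add continuous_const
  α_nonneg := by norm_num
  β_nonneg := by norm_num
  φ_nonneg := fun c _ => by
    linarith [phi_nonneg (le_min zero_le_one (le_max_right c 0)) (min_le_left _ _)]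
  bdry_nonneg := fun t a b ht ha hb => by
    linarith [bdryW_nonneg h h1 ht ha, bdryW_nonneg h h1 ht hb]
  inner_nonneg := fun t c ht hc => innerW_nonneg h h1 ht hc
  cert := fun t a b ht ha hb => by
    have ha' : a ∈ Icc (-1 : ℝ) 1 := ⟨by linarith [ha.1], ha.2⟩
    have hb' : b ∈ Icc (-1 : ℝ) 1 := ⟨by linarith [hb.1], hb.2⟩
    have ca : min 1 (max a 0) = a := by rw [max_eq_left ha.1.le, min_eq_right ha.2]
    have cb : min 1 (max b 0) = b := by rw [max_eq_left hb.1.le, min_eq_right hb.2]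
    rw [ca, cb, show (7 : ℕ) - 1 = 6 from rfl]
    rcases le_total t η with hle | hle
    · have hQ : 0 ≤ t ^ 6 / (a * b)
          * (3 / 80 + ((bdryW η h).K 7 t a + (bdryW η h).K 7 t b) / 2) :=
        mul_nonneg (div_nonneg (pow_nonneg ht.le _) (mul_nonneg ha.1.le hb.1.le))
          (by linarith [bdryW_nonneg h h1 ht.le ha', bdryW_nonneg h h1 ht.le hb'])
      have hI : ∀ c ∈ Ioc (0 : ℝ) 1,
          0 ≤ (∫ r in (0 : ℝ)..t, r ^ 6 * (247 / 33600 + (innerW η h h1).K 7 r c)) / c :=
        fun c hc => div_nonneg (intervalIntegral.integral_nonneg ht.le fun r hr =>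
          mul_nonneg (pow_nonneg hr.1 6)
            (innerW_nonneg h h1 hr.1 ⟨by linarith [hc.1], hc.2⟩)) hc.1.le
      linarith [hI a ha, hI b hb, phi_nonneg ha.1.le ha.2, phi_nonneg hb.1.le hb.2]
    · have e : t ^ 6 / (a * b) * (3 / 80 + ((bdryW η h).K 7 t a + (bdryW η h).K 7 t b) / 2)
          = t ^ 3 / (a * b) * ((qpoly t a + qpoly t b) / 2400) := by
        rw [show 3 / 80 + ((bdryW η h).K 7 t a + (bdryW η h).K 7 t b) / 2
          = ((3 / 80 + (bdryW η h).K 7 t a) + (3 / 80 + (bdryW η h).K 7 t b)) / 2 by ring,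
          bdryW_ge h hle, bdryW_ge h hle]
        have := ha.1.ne'
        have := hb.1.ne'
        field_simp
        ring
      have hx := cert_exact ht ha hb
      simp only [endTerm] at hx
      linarith [inner_all h h1 hle ha, inner_all h h1 hle hb]

theorem mu_calib {η : ℝ} (h : 0 < η) (h1 : η ≤ 1 / 50) :
    (calib η h h1).mu ≤ 12143 / 235200 + 3 * η := by
  have hω : 0 < omega 7 :=
    ENNReal.toReal_pos (Metric.measure_closedBall_pos _ _ one_pos).ne'
      measure_closedBall_lt_top.ne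
  rw [Calib.mu, div_le_iff₀ hω, ballMoment, add_mul, ← ball_phi]
  have hvol : ∫ _v in Metric.closedBall (0 : EE 7) 1, 3 * η = 3 * η * omega 7 := by
    simp [omega, measureReal_def, mul_comm]
  obtain ⟨B, hB⟩ := exists_bound_clampMul
  have hmc : Measurable fun v : EE 7 => v 0 / ‖v‖ := measurable_cos 0
  have hi : IntegrableOn (fun v : EE 7 => clampMul (v 0 / ‖v‖))
      (Metric.closedBall (0 : EE 7) 1) :=
    integrableOn_ball_of_bound (continuous_clampMul.measurable.comp hmc) B fun v => hB _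
  rw [← hvol, ← integral_add hi (integrableOn_const measure_closedBall_lt_top.ne)]
  have hm : Measurable fun v : EE 7 => max 0 (v 0 / ‖v‖) := measurable_const.max hmc
  have e : ∀ v : EE 7, max 0 (v 0 / ‖v‖) * (calib η h h1).φ (max 0 (v 0 / ‖v‖))
      = clampMul (v 0 / ‖v‖) + max 0 (v 0 / ‖v‖) * (3 * η) := by
    intro v
    have h2 := (abs_le.1 (abs_coord_div_le v 0)).2
    have hc : min 1 (max (v 0 / ‖v‖) 0) = max 0 (v 0 / ‖v‖) := by
      rw [max_comm, min_eq_right (max_le zero_le_one h2)]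
    show _ * (phi (min 1 (max (max 0 (v 0 / ‖v‖)) 0)) + 3 * η) = _
    rw [max_eq_left (le_max_left 0 _), min_eq_right (max_le zero_le_one h2), clampMul, hc]
    ring
  have hle : ∀ v : EE 7, max 0 (v 0 / ‖v‖) * (3 * η) ≤ 3 * η := fun v =>
    mul_le_of_le_one_left (by linarith)
      (max_le zero_le_one (abs_le.1 (abs_coord_div_le v 0)).2)
  refine setIntegral_mono ?_ (hi.add (integrableOn_const measure_closedBall_lt_top.ne))
    fun v => ?_
  · simp only [e]
    refine hi.add (integrableOn_ball_of_bound (hm.mul_const _) (3 * η) fun v => ?_)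
    rw [abs_of_nonneg (mul_nonneg (le_max_left _ _) (by linarith))]
    exact hle v
  · simp only [e]
    linarith [hle v]

end Vale.Agent.P219.Seven

namespace Vale.Agent.P219

theorem exists_calib_seven (δ : ℝ) (hδ : 0 < δ) : ∃ C : Calib 7, C.cost ≤ 1 + δ := by
  have hη : 0 < min (δ / 42) (1 / 50) := lt_min (by positivity) (by norm_num)
  refine ⟨Seven.calib _ hη (min_le_right _ _), ?_⟩
  have h := Seven.mu_calib hη (min_le_right _ _)
  have := min_le_left (δ / 42) (1 / 50)
  rw [Calib.cost]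
  show ((7 : ℕ) : ℝ) * (3 / 80) + 2 * (247 / 33600 : ℝ) + 2 * ((7 : ℕ) : ℝ) * _ ≤ _
  push_cast
  linarith

end Vale.Agent.P219
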