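import Vale.Agent.P219.Cert.SevenPoly

/-!
# P219 module Cert7.Exact: the calibration inequality in dimension seven without cut-off

`wE j r = r⁶` times the `c^j` coefficient of the interior kernel, `J j` its primitive, `phi` the
multiplier forced by equality on the ball diagonal `t = 2c`.
-/

open Set MeasureTheory

namespace Vale.Agent.P219.Seven

/-- A rational density of the interior term. -/
noncomputable def dens7 (e : ℝ → ℝ) (r : ℝ) : ℝ := r * e r / (252000 * (2 + |r|) ^ 4)

/-- Its primitive. -/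
noncomputable def prim7 (e : ℝ → ℝ) (t : ℝ) : ℝ := ∫ r in (0 : ℝ)..t, dens7 e r

theorem continuous_e0 : Continuous e0 := by unfold e0; fun_prop
theorem continuous_e1 : Continuous e1 := by unfold e1; fun_prop
theorem continuous_e2 : Continuous e2 := by unfold e2; fun_prop

theorem den7_pos (r : ℝ) : 0 < 252000 * (2 + |r|) ^ 4 := by positivity

theorem continuous_dens7 {e : ℝ → ℝ} (he : Continuous e) : Continuous (dens7 e) :=
  (continuous_id.mul he).div (by fun_prop) fun r => (den7_pos r).ne'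

theorem hasDerivAt_prim7 {e : ℝ → ℝ} (he : Continuous e) (t : ℝ) :
    HasDerivAt (prim7 e) (dens7 e t) t :=
  ((continuous_dens7 he).integral_hasStrictDerivAt 0 t).hasDerivAt

theorem continuous_prim7 {e : ℝ → ℝ} (he : Continuous e) : Continuous (prim7 e) :=
  continuous_iff_continuousAt.2 fun t => (hasDerivAt_prim7 he t).continuousAt

theorem hasDerivAt_prim7_two {e : ℝ → ℝ} (he : Continuous e) (a : ℝ) :
    HasDerivAt (fun x => prim7 e (2 * x)) (2 * dens7 e (2 * a)) a := by
  have := (hasDerivAt_prim7 he (2 * a)).comp a ((hasDerivAt_id' a).const_mul 2)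
  simpa [Function.comp_def, mul_comm] using this

theorem prim7_zero (e : ℝ → ℝ) : prim7 e 0 = 0 := intervalIntegral.integral_same

theorem e0_nonneg {t : ℝ} (ht : 0 ≤ t) : 0 ≤ e0 t :=
  (le_total t 2).elim (e0_head ht) e0_tail

theorem e1_nonpos {t : ℝ} (ht : 0 ≤ t) : e1 t ≤ 0 := by
  have : 0 ≤ -e1 t := (le_total t 2).elim (e1_head ht) e1_tail
  linarith

theorem e2_nonneg {t : ℝ} (ht : 0 ≤ t) : 0 ≤ e2 t :=
  (le_total t 2).elim (e2_head ht) e2_tail

theorem dens7_nonneg {r : ℝ} (hr : 0 ≤ r) : 0 ≤ dens7 e0 r :=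
  div_nonneg (mul_nonneg hr (e0_nonneg hr)) (den7_pos r).le

theorem prim7_e0_nonneg {t : ℝ} (ht : 0 ≤ t) : 0 ≤ prim7 e0 t :=
  intervalIntegral.integral_nonneg ht fun _ hr => dens7_nonneg hr.1

/-- The interior term of a chord end. -/
noncomputable def inner7 (t c : ℝ) : ℝ := prim7 e0 t / c + prim7 e1 t + c * prim7 e2 t

/-- The boundary multiplier. -/
noncomputable def phi (c : ℝ) : ℝ := c - c * qpoly (2 * c) c / 300 - inner7 (2 * c) c

/-- The slack of one chord end paired with itself. -/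
noncomputable def slack (c t : ℝ) : ℝ :=
  t ^ 3 * qpoly t c / (2400 * c ^ 2) + inner7 t c + phi c - t / 2

theorem hasDerivAt_qpoly (c t : ℝ) : HasDerivAt (fun s => qpoly s c) (qpoly' t c) t := by
  have h : qpoly' t c = deriv (fun s => qpoly s c) t := by
    simp (disch := fun_prop) [qpoly, qpoly', q0, q1, q2]
    ring
  rw [h]
  exact DifferentiableAt.hasDerivAt (by unfold qpoly q0 q1 q2; fun_prop)

theorem hasDerivAt_slack {c t : ℝ} (hc : 0 < c) (ht : 0 ≤ t) :
    HasDerivAt (slack c)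
      ((t - 2 * c) * sfac t c / (2 * c ^ 2 * 252000 * (2 + t) ^ 4)) t := by
  have hI : HasDerivAt (fun s => inner7 s c)
      (dens7 e0 t / c + dens7 e1 t + c * dens7 e2 t) t :=
    (((hasDerivAt_prim7 continuous_e0 t).div_const c).add (hasDerivAt_prim7 continuous_e1 t)).add
      ((hasDerivAt_prim7 continuous_e2 t).const_mul c)
  have h := (((((hasDerivAt_pow 3 t).mul (hasDerivAt_qpoly c t)).div_const (2400 * c ^ 2)).add
    hI).add_const (phi c)).sub ((hasDerivAt_id' t).div_const 2)
  refine h.congr_deriv ?_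
  have hu : (2 + t) ≠ 0 := by linarith
  rw [← sfac_eq]
  simp only [dens7, abs_of_nonneg ht, epoly]
  have := hc.ne'
  push_cast
  field_simp
  ring

theorem slack_diag {c : ℝ} (_hc : 0 < c) : slack c (2 * c) = 0 := by
  simp only [slack, phi]
  field_simp
  ring

theorem slack_nonneg {c t : ℝ} (hc : 0 < c) (hc1 : c ≤ 1) (ht : 0 ≤ t) : 0 ≤ slack c t := by
  have hcont : ∀ s ∈ Ici (0 : ℝ), ContinuousWithinAt (slack c) (Ici 0) s := fun s hs =>
    (hasDerivAt_slack hc hs).continuousAt.continuousWithinAt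
  have hS : ∀ {s : ℝ}, 0 ≤ s → 0 ≤ sfac s c := fun hs => sfac_nonneg hs hc.le hc1
  rw [← slack_diag hc]
  rcases le_total t (2 * c) with h | h
  · have hmono : AntitoneOn (slack c) (Icc 0 (2 * c)) := by
      refine antitoneOn_of_hasDerivWithinAt_nonpos (f' := fun s => (s - 2 * c) * sfac s c / (2 * c ^ 2 * 252000 * (2 + s) ^ 4))
        (convex_Icc _ _)
        (fun s hs => ((hcont s hs.1).mono Icc_subset_Ici_self)) (fun s hs => ?_) fun s hs => ?_
      · exact (hasDerivAt_slack hc (interior_subset hs).1).hasDerivWithinAt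
      · obtain ⟨h0, h2⟩ := interior_subset hs
        exact div_nonpos_of_nonpos_of_nonneg
          (mul_nonpos_of_nonpos_of_nonneg (by linarith) (hS h0)) (by positivity)
    exact hmono ⟨ht, h⟩ ⟨by linarith, le_rfl⟩ h
  · have h0 : Ici (2 * c) ⊆ Ici (0 : ℝ) := Ici_subset_Ici.2 (by linarith)
    have hmono : MonotoneOn (slack c) (Ici (2 * c)) := by
      refine monotoneOn_of_hasDerivWithinAt_nonneg (f' := fun s => (s - 2 * c) * sfac s c / (2 * c ^ 2 * 252000 * (2 + s) ^ 4))
        (convex_Ici _)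
        (fun s hs => (hcont s (h0 hs)).mono h0) (fun s hs => ?_) fun s hs => ?_
      · exact (hasDerivAt_slack hc (h0 (interior_subset hs))).hasDerivWithinAt
      · have h2 : 2 * c ≤ s := interior_subset (s := Ici (2 * c)) hs
        exact div_nonneg (mul_nonneg (by linarith) (hS (by linarith))) (by positivity)
    exact hmono self_mem_Ici h h

theorem phi_nonneg {c : ℝ} (hc : 0 ≤ c) (hc1 : c ≤ 1) : 0 ≤ phi c := by
  rcases hc.eq_or_lt with rfl | h
  · simp [phi, inner7, prim7_zero]
  · simpa [slack, inner7, prim7_zero] using slack_nonneg h hc1 le_rfl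

theorem dens7_zero (e : ℝ → ℝ) : dens7 e 0 = 0 := by simp [dens7]

theorem continuous_phi : Continuous phi := by
  have hd : ∀ x, DifferentiableAt ℝ (fun c => prim7 e0 (2 * c)) x := fun x =>
    (hasDerivAt_prim7_two continuous_e0 x).differentiableAt
  have hquot : Continuous fun c : ℝ => prim7 e0 (2 * c) / c := by
    have e : (fun c : ℝ => prim7 e0 (2 * c) / c)
        = dslope (fun c => prim7 e0 (2 * c)) 0 := by
      funext c
      by_cases hc : c = 0
      · subst hc
        rw [dslope_same, (hasDerivAt_prim7_two continuous_e0 0).deriv]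
        simp [dens7_zero]
      · rw [dslope_of_ne _ hc, slope_def_field]
        simp [prim7_zero]
    rw [e, continuous_iff_continuousAt]
    intro x
    by_cases hx : x = 0
    · subst hx; exact continuousAt_dslope_same.2 (hd 0)
    · exact (continuousAt_dslope_of_ne hx).2 (hd x).continuousAt
  have h1 : Continuous fun c : ℝ => prim7 e1 (2 * c) :=
    (continuous_prim7 continuous_e1).comp (by fun_prop)
  have h2 : Continuous fun c : ℝ => prim7 e2 (2 * c) :=
    (continuous_prim7 continuous_e2).comp (by fun_prop)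
  have hq : Continuous fun c : ℝ => qpoly (2 * c) c := by unfold qpoly q0 q1 q2; fun_prop
  unfold phi inner7
  exact (continuous_id.sub ((continuous_id.mul hq).div_const 300)).sub
    ((hquot.add h1).add (continuous_id.mul h2))

/-- The part of a chord end which is convex in the cosine. -/
noncomputable def endTerm (t a : ℝ) : ℝ := inner7 t a + phi a

/-- Its derivative. -/
noncomputable def endTerm' (t a : ℝ) : ℝ :=
  -prim7 e0 t / a ^ 2 + prim7 e2 t + prim7 e0 (2 * a) / a ^ 2 - prim7 e2 (2 * a) + g7 a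

theorem hasDerivAt_endTerm {t a : ℝ} (ha : 0 < a) :
    HasDerivAt (endTerm t) (endTerm' t a) a := by
  have hq : HasDerivAt (fun x => x * qpoly (2 * x) x / 300)
      ((qpoly (2 * a) a + a * (2 * qpoly' (2 * a) a + (q1 (2 * a) + 2 * a * q2 (2 * a)))) / 300)
      a := by
    have h : (qpoly (2 * a) a + a * (2 * qpoly' (2 * a) a + (q1 (2 * a) + 2 * a * q2 (2 * a))))
        / 300 = deriv (fun x => x * qpoly (2 * x) x / 300) a := by
      simp (disch := fun_prop) [qpoly, qpoly', q0, q1, q2]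
      ring
    rw [h]
    exact DifferentiableAt.hasDerivAt (by unfold qpoly q0 q1 q2; fun_prop)
  have hin : HasDerivAt (fun x => inner7 t x) (-prim7 e0 t / a ^ 2 + prim7 e2 t) a := by
    have := (((hasDerivAt_inv ha.ne').const_mul (prim7 e0 t)).add_const (prim7 e1 t)).add
      ((hasDerivAt_id' a).mul_const (prim7 e2 t))
    refine (this.congr_deriv (by ring)).congr_of_eventuallyEq
      (Filter.Eventually.of_forall fun x => ?_)
    simp only [inner7, div_eq_mul_inv, Pi.add_apply]
  have hd : HasDerivAt (fun x => inner7 (2 * x) x)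
      ((2 * dens7 e0 (2 * a) * a - prim7 e0 (2 * a) * 1) / a ^ 2 + 2 * dens7 e1 (2 * a)
        + (1 * prim7 e2 (2 * a) + a * (2 * dens7 e2 (2 * a)))) a :=
    (((hasDerivAt_prim7_two continuous_e0 a).div (hasDerivAt_id' a) ha.ne').add
      (hasDerivAt_prim7_two continuous_e1 a)).add
      ((hasDerivAt_id' a).mul (hasDerivAt_prim7_two continuous_e2 a))
  have h := hin.add (((hasDerivAt_id' a).sub hq).sub hd)
  refine h.congr_deriv ?_
  have hu : (1 + a) ≠ 0 := by linarith
  simp only [endTerm', dens7, abs_of_pos (by linarith : (0 : ℝ) < 2 * a),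
    show 2 + 2 * a = 2 * (1 + a) by ring, qpoly, qpoly', q0, q1, q2, e0, e1, e2, g7]
  have := ha.ne'
  field_simp
  ring

/-- The numerator of the second derivative of `endTerm`, at `t = 0`. -/
noncomputable def wdef (a : ℝ) : ℝ := wbase a / (1 + a) ^ 4 - 2 * prim7 e0 (2 * a)

theorem hasDerivAt_poly_wbase (a : ℝ) : HasDerivAt wbase (wbase' a) a := by
  have h : wbase' a = deriv wbase a := by
    unfold wbase wbase'
    simp (disch := fun_prop)
    ring
  rw [h]
  exact DifferentiableAt.hasDerivAt (by unfold wbase; fun_prop)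

theorem hasDerivAt_g7 (a : ℝ) : HasDerivAt g7 (g7' a) a := by
  have h : g7' a = deriv g7 a := by
    unfold g7 g7'
    simp (disch := fun_prop)
    ring
  rw [h]
  exact DifferentiableAt.hasDerivAt (by unfold g7; fun_prop)

theorem wdef_nonneg {a : ℝ} (ha : 0 ≤ a) : 0 ≤ wdef a := by
  have hder : ∀ x, 0 ≤ x → HasDerivAt wdef (wnum x / (1 + x) ^ 5) x := by
    intro x hx
    have hu : (1 + x) ≠ 0 := by linarith
    have h := ((hasDerivAt_poly_wbase x).div (((hasDerivAt_id' x).const_add 1).pow 4)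
      (pow_ne_zero 4 hu)).sub ((hasDerivAt_prim7_two continuous_e0 x).const_mul 2)
    refine h.congr_deriv ?_
    rw [← wnum_eq]
    simp only [dens7, abs_of_nonneg (by linarith : (0 : ℝ) ≤ 2 * x),
      show 2 + 2 * x = 2 * (1 + x) by ring, Pi.pow_apply]
    push_cast
    field_simp
    ring
  have hm : MonotoneOn wdef (Ici 0) :=
    monotoneOn_of_hasDerivWithinAt_nonneg (convex_Ici _)
      (fun x hx => (hder x hx).continuousAt.continuousWithinAt)
      (fun x hx => (hder x (interior_subset (s := Ici (0 : ℝ)) hx)).hasDerivWithinAt)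
      fun x hx => div_nonneg (wnum_nonneg (interior_subset (s := Ici (0 : ℝ)) hx))
        (pow_nonneg (by linarith [show (0 : ℝ) ≤ x from interior_subset (s := Ici (0 : ℝ)) hx]) 5)
  have h0 : wdef 0 = 0 := by simp [wdef, wbase, prim7_zero]
  exact h0 ▸ hm self_mem_Ici ha ha

theorem convexOn_endTerm {t : ℝ} (ht : 0 ≤ t) : ConvexOn ℝ (Ioi 0) (endTerm t) := by
  have h2 : ∀ a : ℝ, 0 < a →
      HasDerivAt (endTerm' t) ((2 * prim7 e0 t + wdef a) / a ^ 3) a := by
    intro a ha
    have hu : (1 + a) ≠ 0 := by linarith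
    have hp := hasDerivAt_pow 2 a
    have hne : a ^ 2 ≠ 0 := pow_ne_zero 2 ha.ne'
    have h := (((((hasDerivAt_const a (-prim7 e0 t)).div hp hne).add_const (prim7 e2 t)).add
      ((hasDerivAt_prim7_two continuous_e0 a).div hp hne)).sub
      (hasDerivAt_prim7_two continuous_e2 a)).add (hasDerivAt_g7 a)
    refine h.congr_deriv ?_
    simp only [wdef, ← wbase_eq, dens7, abs_of_pos (by linarith : (0 : ℝ) < 2 * a),
      show 2 + 2 * a = 2 * (1 + a) by ring]
    have := ha.ne'
    push_cast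
    field_simp
    ring
  refine convexOn_of_hasDerivWithinAt2_nonneg (convex_Ioi 0)
    (fun a ha => (hasDerivAt_endTerm ha).continuousAt.continuousWithinAt)
    (fun a ha => (hasDerivAt_endTerm (interior_subset ha)).hasDerivWithinAt)
    (fun a ha => (h2 a (interior_subset ha)).hasDerivWithinAt) fun a ha => ?_
  have ha' : 0 < a := interior_subset (s := Ioi (0 : ℝ)) ha
  exact div_nonneg (by linarith [prim7_e0_nonneg ht, wdef_nonneg ha'.le]) (pow_nonneg ha'.le 3)

theorem qpoly_at_one {t : ℝ} (ht : 0 ≤ t) : 0 ≤ q0 t + q1 t + q2 t := by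
  simp only [q0, q1, q2]
  nlinarith [mul_nonneg ht (sq_nonneg (t - 17 / 10)), sq_nonneg (t - 17 / 10)]

theorem quad_nonneg {x0 x1 x2 c : ℝ} (h2 : 0 ≤ x2) (h0 : 0 ≤ x0) (h1 : x1 ≤ 0)
    (hc : c ∈ Icc (-1 : ℝ) 1)
    (h : (0 ≤ 4 * x0 * x2 - x1 ^ 2) ∨ (0 ≤ -x1 - 2 * x2 ∧ 0 ≤ x0 + x1 + x2)) :
    0 ≤ x0 + c * x1 + c ^ 2 * x2 := by
  rcases le_total c 0 with hc0 | hc0
  · have := mul_nonneg_of_nonpos_of_nonpos hc0 h1
    positivity
  rcases h with h | ⟨hv, h⟩
  · rcases h2.eq_or_lt with rfl | h2'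
    · have : x1 = 0 := by nlinarith
      subst this; simp [h0]
    · nlinarith [sq_nonneg (2 * x2 * c + x1)]
  · nlinarith [mul_nonneg (sub_nonneg.2 hc.2) hv,
      mul_nonneg (mul_nonneg (sub_nonneg.2 hc.2) h2) (sub_nonneg.2 hc.2)]

theorem qpoly_nonneg {t c : ℝ} (ht : 0 ≤ t) (hc : c ∈ Icc (-1 : ℝ) 1) : 0 ≤ qpoly t c :=
  quad_nonneg (q2_pos ht).le (q0_nonneg ht) (q1_nonpos ht) hc <|
    (le_total t 1).elim (fun h => Or.inl (q_disc ht h))
      fun h => Or.inr ⟨q_vertex h, qpoly_at_one ht⟩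

theorem epoly_nonneg {t c : ℝ} (ht : 0 ≤ t) (hc : c ∈ Icc (-1 : ℝ) 1) : 0 ≤ epoly t c :=
  quad_nonneg (e2_nonneg ht) (e0_nonneg ht) (e1_nonpos ht) hc <|
    (le_total t 2).elim (fun h => Or.inl (e_disc ht h))
      fun h => Or.inr ⟨e_vertex h, e_at_one h⟩

/-- The calibration inequality without cut-off. -/
theorem cert_exact {t a b : ℝ} (ht : 0 < t) (ha : a ∈ Ioc (0 : ℝ) 1) (hb : b ∈ Ioc (0 : ℝ) 1) :
    t ≤ t ^ 3 / (a * b) * ((qpoly t a + qpoly t b) / 2400) + endTerm t a + endTerm t b := by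
  have hm0 : 0 < (a + b) / 2 := by linarith [ha.1, hb.1]
  have hm1 : (a + b) / 2 ≤ 1 := by linarith [ha.2, hb.2]
  have hs := slack_nonneg hm0 hm1 ht.le
  have hconv := (convexOn_endTerm ht.le).2 (mem_Ioi.2 ha.1) (mem_Ioi.2 hb.1)
    (show (0 : ℝ) ≤ 1 / 2 by norm_num) (show (0 : ℝ) ≤ 1 / 2 by norm_num) (by norm_num)
  simp only [smul_eq_mul] at hconv
  rw [show 1 / 2 * a + 1 / 2 * b = (a + b) / 2 by ring] at hconv
  set m := (a + b) / 2 with hm
  have hq : 2 * qpoly t m ≤ qpoly t a + qpoly t b := by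
    simp only [qpoly, hm]
    nlinarith [mul_nonneg (q2_pos ht.le).le (sq_nonneg (a - b))]
  have hqm : 0 ≤ qpoly t m := qpoly_nonneg ht.le ⟨by linarith, hm1⟩
  have hab : 0 < a * b := mul_pos ha.1 hb.1
  have hle : t ^ 3 / m ^ 2 * (2 * qpoly t m / 2400)
      ≤ t ^ 3 / (a * b) * ((qpoly t a + qpoly t b) / 2400) := by
    refine mul_le_mul ?_ (by linarith) (by positivity) (by positivity)
    exact div_le_div_of_nonneg_left (by positivity) hab
      (by rw [hm]; nlinarith [sq_nonneg (a - b)])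
  have e : t ^ 3 / m ^ 2 * (2 * qpoly t m / 2400) = 2 * (t ^ 3 * qpoly t m / (2400 * m ^ 2)) := by
    field_simp
  simp only [slack] at hs
  simp only [endTerm] at hconv ⊢
  linarith

end Vale.Agent.P219.Seven
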