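import Mathlib

/-!
# P219 module Cert7.Poly: the polynomial facts of the calibration in dimension seven

`qpoly = 1200 t³ (α + K_F)`, `epoly = 252000 t⁵ (2+t)⁴ (β + K_G)`, `sfac` is the sign factor of the
derivative along a chord. Positivity on an interval `[0,b]` is shown by Bernstein expansions, on
`[b,∞)` by expansions at `b`.
-/

namespace Vale.Agent.P219.Seven

/-- The coefficient of `c^0` in `qpoly`. -/
noncomputable def q0 (t : ℝ) : ℝ :=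
    90 + 32 * t + 15 * t ^ 2 + 45 * t ^ 3

/-- The coefficient of `c^1` in `qpoly`. -/
noncomputable def q1 (t : ℝ) : ℝ :=
    -180 * t - 48 * t ^ 2 - 18 * t ^ 3

/-- The coefficient of `c^2` in `qpoly`. -/
noncomputable def q2 (t : ℝ) : ℝ :=
    90 + 16 * t + 3 * t ^ 2

/-- The coefficient of `c^0` in `epoly`. -/
noncomputable def e0 (t : ℝ) : ℝ :=
    100800 - 228480 * t + 198240 * t ^ 2 + 231840 * t ^ 3 + 25620 * t ^ 4 + 26040 * t ^ 5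
    + 68922 * t ^ 6 + 47424 * t ^ 7 + 14820 * t ^ 8 + 3705 / 2 * t ^ 9

/-- The coefficient of `c^1` in `epoly`. -/
noncomputable def e1 (t : ℝ) : ℝ :=
    -604800 * t + 80640 * t ^ 2 - 141120 * t ^ 3 - 514080 * t ^ 4 - 169848 * t ^ 5
    + 4944 * t ^ 6 - 7428 * t ^ 7 - 4446 * t ^ 8

/-- The coefficient of `c^2` in `epoly`. -/
noncomputable def e2 (t : ℝ) : ℝ :=
    504000 + 147840 * t - 57120 * t ^ 2 + 282240 * t ^ 3 + 144228 * t ^ 4 - 1344 * t ^ 5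
    - 2214 * t ^ 6 + 1482 * t ^ 7

/-- The numerator of the interior weight. -/
noncomputable def numG (t : ℝ) : ℝ :=
    50400 - 31920 * t + 27720 * t ^ 2 + 28980 * t ^ 3 - 336 * t ^ 4 - 244 * t ^ 5 + 741 * t ^ 6

/-- The numerator of the boundary kernel. -/
noncomputable def qpoly (t c : ℝ) : ℝ := q0 t + c * q1 t + c ^ 2 * q2 t

/-- The `t`-derivative of `qpoly`. -/
noncomputable def qpoly' (t c : ℝ) : ℝ :=
  (32 + 30 * t + 135 * t ^ 2)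
    + c * (-180 - 96 * t - 54 * t ^ 2)
    + c ^ 2 * (16 + 6 * t)

/-- The numerator of the interior kernel. -/
noncomputable def epoly (t c : ℝ) : ℝ := e0 t + c * e1 t + c ^ 2 * e2 t

/-- Bernstein coefficient 0 of `sfac`. -/
noncomputable def b0 (t : ℝ) : ℝ :=
    907200 * t + 2244480 * t ^ 2 + 2472960 * t ^ 3 + 2509920 * t ^ 4 + 2464140 * t ^ 5
    + 1513680 * t ^ 6 + 469350 * t ^ 7 + 56700 * t ^ 8

/-- Bernstein coefficient 1 of `sfac`. -/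
noncomputable def b1 (t : ℝ) : ℝ :=
    1008000 + 2923200 * t + 3706080 * t ^ 2 + 2392320 * t ^ 3 + 2197440 * t ^ 4
    + 2431380 * t ^ 5 + 1502592 * t ^ 6 + 457554 * t ^ 7 + 60180 * t ^ 8 + 3705 / 2 * t ^ 9

/-- Bernstein coefficient 2 of `sfac`. -/
noncomputable def b2 (t : ℝ) : ℝ :=
    2016000 + 4435200 * t + 5019840 * t ^ 2 + 2368800 * t ^ 3 + 1602720 * t ^ 4
    + 2254392 * t ^ 5 + 1492848 * t ^ 6 + 447972 * t ^ 7 + 62178 * t ^ 8 + 3705 * t ^ 9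

/-- The sign factor. -/
noncomputable def sfac (t c : ℝ) : ℝ :=
  (1 - c) ^ 2 * b0 t + 2 * c * (1 - c) * b1 t + c ^ 2 * b2 t

theorem sfac_eq (t c : ℝ) :
    210 * (3 * t ^ 2 * qpoly t c + t ^ 3 * qpoly' t c) * (2 + t) ^ 4 + 2 * c * t * epoly t c
      - 252000 * c ^ 2 * (2 + t) ^ 4 = (t - 2 * c) * sfac t c := by
  simp only [qpoly, qpoly', q0, q1, q2, epoly, e0, e1, e2, sfac, b0, b1, b2]
  ring

theorem b0_nonneg {t : ℝ} (ht : 0 ≤ t) : 0 ≤ b0 t := by unfold b0; positivity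

theorem b1_nonneg {t : ℝ} (ht : 0 ≤ t) : 0 ≤ b1 t := by unfold b1; positivity

theorem b2_nonneg {t : ℝ} (ht : 0 ≤ t) : 0 ≤ b2 t := by unfold b2; positivity

theorem sfac_nonneg {t c : ℝ} (ht : 0 ≤ t) (h0 : 0 ≤ c) (h1 : c ≤ 1) : 0 ≤ sfac t c := by
  have := b0_nonneg ht
  have := b1_nonneg ht
  have := b2_nonneg ht
  have : 0 ≤ 1 - c := by linarith
  unfold sfac
  positivity

theorem q0_nonneg {t : ℝ} (ht : 0 ≤ t) : 0 ≤ q0 t := by unfold q0; positivity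

theorem q2_pos {t : ℝ} (ht : 0 ≤ t) : 0 < q2 t := by unfold q2; positivity

theorem q1_nonpos {t : ℝ} (ht : 0 ≤ t) : q1 t ≤ 0 := by
  have h : 0 ≤ 180 * t + 48 * t ^ 2 + 18 * t ^ 3 := by positivity
  unfold q1
  linarith

theorem numG_pos {t : ℝ} (ht : 0 ≤ t) : 0 < numG t := by
  unfold numG
  nlinarith [sq_nonneg (t - 3 / 5), mul_nonneg (pow_nonneg ht 3) (sq_nonneg (t - 1)),
    mul_nonneg (pow_nonneg ht 4) (sq_nonneg (t - 1 / 5)), pow_nonneg ht 3]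

theorem q_disc {t : ℝ} (ht : 0 ≤ t) (htb : t ≤ 1) : 0 ≤ 4 * q0 t * q2 t - q1 t ^ 2 := by
  obtain ⟨u, hu, hu'⟩ : ∃ u : ℝ, 0 ≤ u ∧ t + u = 1 := ⟨1 - t, by linarith, by ring⟩
  have h : 0 ≤
    32400 * u ^ 6 + 211680 * t * u ^ 5 + 548528 * t ^ 2 * u ^ 4 + 725576 * t ^ 3 * u ^ 3
    + 510636 * t ^ 4 * u ^ 2 + 173468 * t ^ 5 * u + 18836 * t ^ 6 := by positivity
  rw [show u = 1 - t by linarith] at h
  simp only [q0, q1, q2]
  linarith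

theorem q_vertex {t : ℝ} (htb : 1 ≤ t) : 0 ≤ -q1 t - 2 * q2 t := by
  obtain ⟨s, hs, rfl⟩ : ∃ s : ℝ, 0 ≤ s ∧ t = 1 + s := ⟨t - 1, by linarith, by ring⟩
  have h : 0 ≤
    28 + 286 * s + 96 * s ^ 2 + 18 * s ^ 3 := by positivity
  simp only [q1, q2]
  linarith

theorem e_disc {t : ℝ} (ht : 0 ≤ t) (htb : t ≤ 2) : 0 ≤ 4 * e0 t * e2 t - e1 t ^ 2 := by
  obtain ⟨u, hu, hu'⟩ : ∃ u : ℝ, 0 ≤ u ∧ t + u = 2 := ⟨2 - t, by linarith, by ring⟩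
  have h : 0 ≤
    203212800000 * u ^ 16 + 2449391616000 * t * u ^ 15 + 11858234572800 * t ^ 2 * u ^ 14
    + 29413652889600 * t ^ 3 * u ^ 13 + 44167444070400 * t ^ 4 * u ^ 12
    + 80581516001280 * t ^ 5 * u ^ 11 + 266230970449920 * t ^ 6 * u ^ 10
    + 745551579709440 * t ^ 7 * u ^ 9 + 1492774582763520 * t ^ 8 * u ^ 8
    + 2182349012336640 * t ^ 9 * u ^ 7 + 2178431657902080 * t ^ 10 * u ^ 6
    + 1229962423173120 * t ^ 11 * u ^ 5 + 267099241512960 * t ^ 12 * u ^ 4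
    + 192495279144960 * t ^ 13 * u ^ 3 + 456150934093824 * t ^ 14 * u ^ 2
    + 336027734507520 * t ^ 15 * u + 81338558054400 * t ^ 16 := by positivity
  rw [show u = 2 - t by linarith] at h
  simp only [e0, e1, e2]
  linarith

theorem e_vertex {t : ℝ} (htb : 2 ≤ t) : 0 ≤ -e1 t - 2 * e2 t := by
  obtain ⟨s, hs, rfl⟩ : ∃ s : ℝ, 0 ≤ s ∧ t = 2 + s := ⟨t - 2, by linarith, by ring⟩
  have h : 0 ≤
    7165440 + 22839552 * s + 27554496 * s ^ 2 + 18667584 * s ^ 3 + 8149464 * s ^ 4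
    + 2533128 * s ^ 5 + 559932 * s ^ 6 + 75600 * s ^ 7 + 4446 * s ^ 8 := by positivity
  simp only [e1, e2]
  linarith

theorem e_at_one {t : ℝ} (htb : 2 ≤ t) : 0 ≤ e0 t + e1 t + e2 t := by
  obtain ⟨s, hs, rfl⟩ : ∃ s : ℝ, 0 ≤ s ∧ t = 2 + s := ⟨t - 2, by linarith, by ring⟩
  have h : 0 ≤
    6451200 + 29280000 * s + 54782016 * s ^ 2 + 55054272 * s ^ 3 + 33205368 * s ^ 4
    + 12581016 * s ^ 5 + 3059112 * s ^ 6 + 474222 * s ^ 7 + 43719 * s ^ 8 + 3705 / 2 * s ^ 9 := by positivity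
  simp only [e0, e1, e2]
  linarith

theorem e2_head {t : ℝ} (ht : 0 ≤ t) (htb : t ≤ 2) : 0 ≤ e2 t := by
  obtain ⟨u, hu, hu'⟩ : ∃ u : ℝ, 0 ≤ u ∧ t + u = 2 := ⟨2 - t, by linarith, by ring⟩
  have h : 0 ≤
    504000 * u ^ 7 + 3823680 * t * u ^ 6 + 12129600 * t ^ 2 * u ^ 5 + 23190720 * t ^ 3 * u ^ 4
    + 32608128 * t ^ 4 * u ^ 3 + 33161856 * t ^ 5 * u ^ 2 + 19886592 * t ^ 6 * u
    + 5141760 * t ^ 7 := by positivity
  rw [show u = 2 - t by linarith] at h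
  simp only [e2]
  linarith

theorem e2_tail {t : ℝ} (htb : 2 ≤ t) : 0 ≤ e2 t := by
  obtain ⟨s, hs, rfl⟩ : ∃ s : ℝ, 0 ≤ s ∧ t = 2 + s := ⟨t - 2, by linarith, by ring⟩
  have h : 0 ≤
    5141760 + 8052864 * s + 5454816 * s ^ 2 + 1857984 * s ^ 3 + 412908 * s ^ 4 + 96576 * s ^ 5
    + 18534 * s ^ 6 + 1482 * s ^ 7 := by positivity
  simp only [e2]
  linarith

theorem e1_head {t : ℝ} (ht : 0 ≤ t) (htb : t ≤ 2) : 0 ≤ -e1 t := by
  obtain ⟨u, hu, hu'⟩ : ∃ u : ℝ, 0 ≤ u ∧ t + u = 2 := ⟨2 - t, by linarith, by ring⟩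
  have h : 0 ≤
    1209600 * t * u ^ 7 + 8144640 * t ^ 2 * u ^ 6 + 24595200 * t ^ 3 * u ^ 5
    + 51367680 * t ^ 4 * u ^ 4 + 85510656 * t ^ 5 * u ^ 3 + 97193472 * t ^ 6 * u ^ 2
    + 61701120 * t ^ 7 * u + 17448960 * t ^ 8 := by positivity
  rw [show u = 2 - t by linarith] at h
  simp only [e1]
  linarith

theorem e1_tail {t : ℝ} (htb : 2 ≤ t) : 0 ≤ -e1 t := by
  obtain ⟨s, hs, rfl⟩ : ∃ s : ℝ, 0 ≤ s ∧ t = 2 + s := ⟨t - 2, by linarith, by ring⟩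
  have h : 0 ≤
    17448960 + 38945280 * s + 38464128 * s ^ 2 + 22383552 * s ^ 3 + 8975280 * s ^ 4
    + 2726280 * s ^ 5 + 597000 * s ^ 6 + 78564 * s ^ 7 + 4446 * s ^ 8 := by positivity
  simp only [e1]
  linarith

theorem e0_head {t : ℝ} (ht : 0 ≤ t) (htb : t ≤ 2) : 0 ≤ e0 t := by
  obtain ⟨u, hu, hu'⟩ : ∃ u : ℝ, 0 ≤ u ∧ t + u = 2 := ⟨2 - t, by linarith, by ring⟩
  have h : 0 ≤
    100800 * u ^ 9 + 450240 * t * u ^ 8 + 766080 * t ^ 2 * u ^ 7 + 3077760 * t ^ 3 * u ^ 6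
    + 15301440 * t ^ 4 * u ^ 5 + 39170880 * t ^ 5 * u ^ 4 + 59568768 * t ^ 6 * u ^ 3
    + 63709056 * t ^ 7 * u ^ 2 + 48480768 * t ^ 8 * u + 18758400 * t ^ 9 := by positivity
  rw [show u = 2 - t by linarith] at h
  simp only [e0]
  linarith

theorem e0_tail {t : ℝ} (htb : 2 ≤ t) : 0 ≤ e0 t := by
  obtain ⟨s, hs, rfl⟩ : ∃ s : ℝ, 0 ≤ s ∧ t = 2 + s := ⟨t - 2, by linarith, by ring⟩
  have h : 0 ≤
    18758400 + 60172416 * s + 87791328 * s ^ 2 + 75579840 * s ^ 3 + 41767740 * s ^ 4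
    + 15210720 * s ^ 5 + 3637578 * s ^ 6 + 551304 * s ^ 7 + 48165 * s ^ 8 + 3705 / 2 * s ^ 9 := by positivity
  simp only [e0]
  linarith

/-- The derivative of the multiplier minus its integral part. -/
noncomputable def g7 (a : ℝ) : ℝ :=
    3 / 5 + 32 / 75 * a - 4 / 5 * a ^ 2 + 44 / 25 * a ^ 3 - 12 / 25 * a ^ 4

/-- The derivative of `g7`. -/
noncomputable def g7' (a : ℝ) : ℝ :=
    32 / 75 - 8 / 5 * a + 132 / 25 * a ^ 2 - 48 / 25 * a ^ 3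

/-- The numerator of the derivative of the convexity defect. -/
noncomputable def wnum (a : ℝ) : ℝ :=
    32 / 75 * a ^ 2 + 14 / 15 * a ^ 3 + 242 / 25 * a ^ 4 + 1052 / 15 * a ^ 5
    + 10328 / 75 * a ^ 6 + 15016 / 125 * a ^ 7 + 788 / 15 * a ^ 8 + 48814 / 2625 * a ^ 9
    + 1886 / 175 * a ^ 10 + 2964 / 875 * a ^ 11

/-- The numerator of the explicit part of the convexity defect. -/
noncomputable def wbase (a : ℝ) : ℝ :=
    1 / 10 * a ^ 2 - 2 / 75 * a ^ 3 + 59 / 150 * a ^ 4 + 224 / 75 * a ^ 5 + 597 / 50 * a ^ 6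
    + 1246 / 75 * a ^ 7 + 1513 / 150 * a ^ 8 + 1924 / 525 * a ^ 9 + 5209 / 2625 * a ^ 10
    + 1976 / 2625 * a ^ 11

/-- The derivative of `wbase`. -/
noncomputable def wbase' (a : ℝ) : ℝ :=
    1 / 5 * a - 2 / 25 * a ^ 2 + 118 / 75 * a ^ 3 + 224 / 15 * a ^ 4 + 1791 / 25 * a ^ 5
    + 8722 / 75 * a ^ 6 + 6052 / 75 * a ^ 7 + 5772 / 175 * a ^ 8 + 10418 / 525 * a ^ 9
    + 21736 / 2625 * a ^ 10

theorem wnum_eq (a : ℝ) :
    wbase' a * (1 + a) - 4 * wbase a - 4 * (2 * a / (16 * 252000) * e0 (2 * a)) * (1 + a)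
      = wnum a := by
  simp only [wbase', wbase, wnum, e0]
  ring

theorem wbase_eq (a : ℝ) :
    2 * a * (2 * a / (16 * 252000) * e0 (2 * a)) - 2 * a ^ 3 * (2 * a / (16 * 252000) * e2 (2 * a))
      + a ^ 3 * g7' a * (1 + a) ^ 4 = wbase a := by
  simp only [wbase, g7', e0, e2]
  ring

theorem wnum_nonneg {a : ℝ} (ha : 0 ≤ a) : 0 ≤ wnum a := by unfold wnum; positivity

end Vale.Agent.P219.Seven
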