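import Vale.Agent.P219.Cert.TenFacts

/-!
# P219: the pointwise calibration in dimension ten

`F = (P(t)-u²R(t))/(t⁵(t+2)⁴)`. The pair kernel is reduced to nonnegative cosines; with `s=a+b`,
`p=ab` it is quadratic concave in `p`, and the multiplier is convex, so only the edges `p=0`,
`p=s²/4`, `p=s-1` remain.
-/

namespace Vale.Agent.P219.Ten

open PosCheck Set

/-- Numerator of the `t`-derivative from `P`. -/
noncomputable def pA (t : ℝ) : ℝ := dP t * t * (t + 2) - pP t * (5 * (t + 2) + 4 * t)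

/-- Numerator of the `t`-derivative from `R`. -/
noncomputable def pB (t : ℝ) : ℝ := dR t * t * (t + 2) - pR t * (5 * (t + 2) + 4 * t)

/-- `2t⁶(t+2)⁵ Q`. -/
noncomputable def W (t a b : ℝ) : ℝ :=
  2 * al * (t ^ 6 * (t + 2) ^ 5) + pA t * (2 - (a ^ 2 + b ^ 2))
    - pB t * ((a ^ 2 + b ^ 2) - 2 * (a * b) ^ 2) + pP t * (t + 2) * (16 + (a ^ 2 + b ^ 2))
    - pR t * (t + 2) * (8 * (a ^ 2 + b ^ 2) + 2 * (a * b) ^ 2)
    - 9 * t * (t + 2) * (a * (pP t - b ^ 2 * pR t) + b * (pP t - a ^ 2 * pR t))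
    - 2 * |a * b| * (pR t * (t + 2)) * (2 - (a ^ 2 + b ^ 2))

/-- `W` for nonnegative cosines in `s=a+b`, `p=ab`. -/
noncomputable def Ws (t s p : ℝ) : ℝ :=
  2 * al * (t ^ 6 * (t + 2) ^ 5) + pA t * (2 - (s ^ 2 - 2 * p))
    - pB t * ((s ^ 2 - 2 * p) - 2 * p ^ 2) + pP t * (t + 2) * (16 + (s ^ 2 - 2 * p))
    - pR t * (t + 2) * (8 * (s ^ 2 - 2 * p) + 2 * p ^ 2)
    - 9 * t * (t + 2) * (s * pP t - p * s * pR t)
    - 2 * p * (pR t * (t + 2)) * (2 - (s ^ 2 - 2 * p))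

/-- The certificate numerator. -/
noncomputable def Hs (t s p : ℝ) : ℝ :=
  (s + 2) ^ 3 * (t ^ 3 * Ws t s p) + 2 * (t + 2) ^ 5 * p * (2 * num s - t * (s + 2) ^ 3)

/-- The coefficient of `-p²`. -/
noncomputable def c2 (t : ℝ) : ℝ := 6 * (pR t * (t + 2)) - 2 * pB t

theorem w0_eq (t s : ℝ) : 2143680000 * Ws t s 0 = ev2 tW0 t s := by
  simp only [Ws, Hs, c2, pA, pB, pP, dP, pR, dR, num, dnum, ddnum, al, ev, ev2, tW0]
  push_cast
  ring

theorem wd_eq (t s : ℝ) : 6431040000 * Ws t s (s ^ 2 / 4) = ev2 tWd t s := by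
  simp only [Ws, Hs, c2, pA, pB, pP, dP, pR, dR, num, dnum, ddnum, al, ev, ev2, tWd]
  push_cast
  ring

theorem we_eq (t s : ℝ) : 6431040000 * Ws t s (s - 1) = ev2 tWe t s := by
  simp only [Ws, Hs, c2, pA, pB, pP, dP, pR, dR, num, dnum, ddnum, al, ev, ev2, tWe]
  push_cast
  ring

theorem c2_eq (t : ℝ) : 200970000 * c2 t = ev tW2 t := by
  simp only [Ws, Hs, c2, pA, pB, pP, dP, pR, dR, num, dnum, ddnum, al, ev, ev2, tW2]
  push_cast
  ring

theorem hd_eq (t s : ℝ) : 6431040000 * Hs t s (s ^ 2 / 4) = (t - s) ^ 2 * ev2 tHq t s := by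
  simp only [Ws, Hs, c2, pA, pB, pP, dP, pR, dR, num, dnum, ddnum, al, ev, ev2, tHq]
  push_cast
  ring

theorem he_eq (t s : ℝ) : 6431040000 * Hs t s (s - 1) = ev2 tHe t s := by
  simp only [Ws, Hs, c2, pA, pB, pP, dP, pR, dR, num, dnum, ddnum, al, ev, ev2, tHe]
  push_cast
  ring

theorem corner_eq (t s : ℝ) : 6431040000 * Hs t s (s - 1) = (2 - s) ^ 2 * ev tRho s + (2 - s) * ev tSig s * (t - s) + (t - s) ^ 2 * ev2 tA t s := by
  simp only [Ws, Hs, c2, pA, pB, pP, dP, pR, dR, num, dnum, ddnum, al, ev, ev2, tA, tRho, tSig]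
  push_cast
  ring

theorem disc_eq (t s : ℝ) : ev2 tDisc t s = 4 * ev2 tA t s * ev tRho s - ev tSig s ^ 2 := by
  simp only [ev, ev2, tDisc, tA, tRho, tSig]
  push_cast
  ring

theorem a1_eq (t s : ℝ) : ev2 tA1 t s = ev2 tA t s - 1 := by
  simp only [ev, ev2, tA1, tA]
  push_cast
  ring

theorem cv_eq (x : ℝ) : 3215520000 * (ddnum x * (x + 2) ^ 2 - 6 * dnum x * (x + 2) + 12 * num x) = ev tCv x := by
  simp only [Ws, Hs, c2, pA, pB, pP, dP, pR, dR, num, dnum, ddnum, al, ev, ev2, tCv]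
  push_cast
  ring

theorem num_eq (x : ℝ) : 6431040000 * num x = x * ev tNum x := by
  simp only [num, ev, tNum]
  push_cast
  ring

theorem pr_eq (t : ℝ) : 6431040000 * (pP t - pR t) = ev tPR t := by
  simp only [pP, pR, ev, tPR]
  push_cast
  ring

theorem pR_nonneg {t : ℝ} (ht : 0 ≤ t) : 0 ≤ pR t := by unfold pR; positivity

theorem pP_nonneg {t : ℝ} (ht : 0 ≤ t) : 0 ≤ pP t := by unfold pP; positivity

theorem N_nonneg {t u : ℝ} (ht : 0 ≤ t) (hu : u ∈ Icc (-1 : ℝ) 1) :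
    0 ≤ pP t - u ^ 2 * pR t := by
  have h := pr_nn ht
  rw [← pr_eq] at h
  have h' : 0 ≤ pP t - pR t := nonneg_of_mul_nonneg_right h (by norm_num)
  have : u ^ 2 * pR t ≤ 1 * pR t :=
    mul_le_mul_of_nonneg_right (by nlinarith [hu.1, hu.2]) (pR_nonneg ht)
  linarith

theorem Ws_zero {t s : ℝ} (ht : 0 ≤ t) (hs : 0 ≤ s) (hs1 : s ≤ 1) : 0 ≤ Ws t s 0 := by
  have h := w0_nn ht hs hs1
  rw [← w0_eq] at h
  exact nonneg_of_mul_nonneg_right h (by norm_num)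

theorem Ws_diag {t s : ℝ} (ht : 0 ≤ t) (hs : 0 ≤ s) (hs2 : s ≤ 2) :
    0 ≤ Ws t s (s ^ 2 / 4) := by
  have h := wd_nn ht hs hs2
  rw [← wd_eq] at h
  exact nonneg_of_mul_nonneg_right h (by norm_num)

theorem Ws_one {t s : ℝ} (ht : 0 ≤ t) (hs : 1 ≤ s) (hs2 : s ≤ 2) : 0 ≤ Ws t s (s - 1) := by
  have h := we_nn ht hs hs2
  rw [← we_eq] at h
  exact nonneg_of_mul_nonneg_right h (by norm_num)

theorem c2_nonneg {t : ℝ} (ht : 0 ≤ t) : 0 ≤ c2 t := by
  have h := w2_nn ht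
  rw [← c2_eq] at h
  exact nonneg_of_mul_nonneg_right h (by norm_num)

theorem Hs_diag {t s : ℝ} (ht : 0 ≤ t) (hs : 0 ≤ s) (hs2 : s ≤ 2) :
    0 ≤ Hs t s (s ^ 2 / 4) := by
  have h := mul_nonneg (sq_nonneg (t - s)) (hq_nn ht hs hs2)
  rw [← hd_eq] at h
  exact nonneg_of_mul_nonneg_right h (by norm_num)

theorem Hs_one {t s : ℝ} (ht : 0 ≤ t) (hs : 1 ≤ s) (hs2 : s ≤ 2) : 0 ≤ Hs t s (s - 1) := by
  have far : 0 ≤ ev2 tHe t s → 0 ≤ Hs t s (s - 1) := fun h => by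
    rw [← he_eq] at h
    exact nonneg_of_mul_nonneg_right h (by norm_num)
  rcases le_total t (7 / 4) with h1 | h1
  · exact far (he_left ht h1 hs hs2)
  rcases le_total s (7 / 4) with h2 | h2
  · exact far (he_low h1 hs h2)
  rcases le_total 2 t with h3 | h3
  · exact far (he_right h3 h2 hs2)
  have hA := a_pos h1 h3 h2 hs2
  rw [a1_eq] at hA
  have hD := disc_nn h1 h3 h2 hs2
  rw [disc_eq] at hD
  have key : 0 ≤ 4 * ev2 tA t s * (6431040000 * Hs t s (s - 1)) := by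
    rw [corner_eq]
    nlinarith [sq_nonneg (2 * ev2 tA t s * (t - s) + (2 - s) * ev tSig s),
      mul_nonneg (sq_nonneg (2 - s)) hD]
  exact nonneg_of_mul_nonneg_right (nonneg_of_mul_nonneg_right key (by linarith)) (by norm_num)

/-- A concave quadratic is above its values at the ends. -/
theorem quad_ge_ends {k0 k1 k2 lo hi p : ℝ} (h1 : lo ≤ p) (h2 : p ≤ hi) (hk : k2 ≤ 0)
    (hlo : 0 ≤ k0 + k1 * lo + k2 * lo ^ 2) (hhi : 0 ≤ k0 + k1 * hi + k2 * hi ^ 2) :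
    0 ≤ k0 + k1 * p + k2 * p ^ 2 := by
  rcases (h1.trans h2).lt_or_eq with h | h
  · have key : (hi - lo) * (k0 + k1 * p + k2 * p ^ 2) = (hi - p) * (k0 + k1 * lo + k2 * lo ^ 2)
        + (p - lo) * (k0 + k1 * hi + k2 * hi ^ 2) + (p - lo) * (hi - p) * (hi - lo) * (-k2) := by
      ring
    have x1 : 0 ≤ hi - p := by linarith
    have x2 : 0 ≤ p - lo := by linarith
    have x3 : 0 ≤ hi - lo := by linarith
    have x4 : 0 ≤ -k2 := by linarith
    have : 0 ≤ (hi - lo) * (k0 + k1 * p + k2 * p ^ 2) := by rw [key]; positivity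
    exact nonneg_of_mul_nonneg_right this (by linarith)
  · obtain rfl : p = lo := by linarith
    exact hlo

theorem exists_Ws_quad (t s : ℝ) :
    ∃ k0 k1, ∀ p, Ws t s p = k0 + k1 * p + -c2 t * p ^ 2 := by
  refine ⟨Ws t s 0, Ws t s 1 - Ws t s 0 + c2 t, fun p => ?_⟩
  simp only [Ws, c2]
  ring

theorem Ws_nonneg {t s p : ℝ} (ht : 0 ≤ t) (hs : 0 ≤ s) (hs2 : s ≤ 2)
    (h1 : max 0 (s - 1) ≤ p) (h2 : p ≤ s ^ 2 / 4) : 0 ≤ Ws t s p := by
  obtain ⟨k0, k1, e⟩ := exists_Ws_quad t s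
  rw [e]
  refine quad_ge_ends h1 h2 (neg_nonpos.2 (c2_nonneg ht)) ?_ ?_
  · rw [← e]
    rcases le_total s 1 with h | h
    · rw [max_eq_left (by linarith)]; exact Ws_zero ht hs h
    · rw [max_eq_right (by linarith)]; exact Ws_one ht h hs2
  · rw [← e]; exact Ws_diag ht hs hs2

theorem Hs_nonneg {t s p : ℝ} (ht : 0 ≤ t) (hs : 0 ≤ s) (hs2 : s ≤ 2)
    (h1 : max 0 (s - 1) ≤ p) (h2 : p ≤ s ^ 2 / 4) : 0 ≤ Hs t s p := by
  obtain ⟨k0, k1, e⟩ := exists_Ws_quad t s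
  have e' : ∀ p, Hs t s p = (s + 2) ^ 3 * t ^ 3 * k0
      + ((s + 2) ^ 3 * t ^ 3 * k1 + 2 * (t + 2) ^ 5 * (2 * num s - t * (s + 2) ^ 3)) * p
      + -((s + 2) ^ 3 * t ^ 3 * c2 t) * p ^ 2 := fun p => by simp only [Hs, e]; ring
  rw [e']
  have hc := c2_nonneg ht
  have hs3 : 0 ≤ (s + 2) ^ 3 * t ^ 3 := by positivity
  refine quad_ge_ends h1 h2 (neg_nonpos.2 (mul_nonneg hs3 hc)) ?_ ?_
  · rw [← e']
    rcases le_total s 1 with h | h
    · rw [max_eq_left (by linarith)]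
      simp only [Hs, mul_zero, zero_mul, add_zero]
      exact mul_nonneg (by positivity) (mul_nonneg (by positivity) (Ws_zero ht hs h))
    · rw [max_eq_right (by linarith)]; exact Hs_one ht h hs2
  · rw [← e']; exact Hs_diag ht hs hs2

theorem W_eq_Ws {t a b : ℝ} (ha : 0 ≤ a) (hb : 0 ≤ b) : W t a b = Ws t (a + b) (a * b) := by
  simp only [W, Ws, abs_of_nonneg (mul_nonneg ha hb)]; ring

theorem sp_bounds {a b : ℝ} (ha : a ∈ Icc (0 : ℝ) 1) (hb : b ∈ Icc (0 : ℝ) 1) :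
    max 0 (a + b - 1) ≤ a * b ∧ a * b ≤ (a + b) ^ 2 / 4 :=
  ⟨max_le (mul_nonneg ha.1 hb.1)
    (by nlinarith [mul_nonneg (sub_nonneg.2 ha.2) (sub_nonneg.2 hb.2)]),
    by nlinarith [sq_nonneg (a - b)]⟩

theorem W_nonneg {t a b : ℝ} (ht : 0 ≤ t) (ha : a ∈ Icc (-1 : ℝ) 1) (hb : b ∈ Icc (-1 : ℝ) 1) :
    0 ≤ W t a b := by
  have A : |a| ∈ Icc (0 : ℝ) 1 := ⟨abs_nonneg a, abs_le.2 ha⟩
  have B : |b| ∈ Icc (0 : ℝ) 1 := ⟨abs_nonneg b, abs_le.2 hb⟩
  obtain ⟨h1, h2⟩ := sp_bounds A B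
  have h := Ws_nonneg ht (add_nonneg A.1 B.1) (by linarith [A.2, B.2]) h1 h2
  rw [← W_eq_Ws A.1 B.1] at h
  refine h.trans ?_
  have m : |(|a| * |b|)| = |a * b| := by rw [← abs_mul, abs_abs]
  have n : (|a| * |b|) ^ 2 = (a * b) ^ 2 := by rw [mul_pow, sq_abs, sq_abs, mul_pow]
  have i := add_le_add (mul_le_mul_of_nonneg_right (le_abs_self a) (N_nonneg ht hb))
    (mul_le_mul_of_nonneg_right (le_abs_self b) (N_nonneg ht ha))
  have j := mul_le_mul_of_nonneg_left i (by positivity : (0 : ℝ) ≤ 9 * t * (t + 2))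
  simp only [W, sq_abs, m, n]
  linarith

/-- The weight. -/
noncomputable def F (t u : ℝ) : ℝ := (pP t - u ^ 2 * pR t) / (t ^ 5 * (t + 2) ^ 4)

/-- Its derivative in `t`. -/
noncomputable def Ft (t u : ℝ) : ℝ := (pA t - u ^ 2 * pB t) / (t ^ 6 * (t + 2) ^ 5)

/-- Its derivative in `u`. -/
noncomputable def Fu (t u : ℝ) : ℝ := -(2 * u * pR t) / (t ^ 5 * (t + 2) ^ 4)

/-- The variation kernel in dimension `10`. -/
noncomputable def K (t a u : ℝ) : ℝ :=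
  Ft t u * (1 - a ^ 2) + F t u * ((8 + a ^ 2) / t - 9 * a)
    - |Fu t u| * |a| * (1 - (a ^ 2 + u ^ 2) / 2) / t

/-- The pair kernel. -/
noncomputable def Q (t a b : ℝ) : ℝ := al + (K t a b + K t b a) / 2

theorem Q_eq {t a b : ℝ} (ht : 0 < t) : 2 * (t ^ 6 * (t + 2) ^ 5) * Q t a b = W t a b := by
  have t2 : 0 < t + 2 := by linarith
  have e : ∀ x y : ℝ, |Fu t y| * |x| = 2 * |x * y| * pR t / (t ^ 5 * (t + 2) ^ 4) := by
    intro x y
    rw [Fu, abs_div, abs_neg, abs_mul, abs_mul, abs_of_nonneg (pR_nonneg ht.le),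
      abs_of_pos (by positivity : (0 : ℝ) < t ^ 5 * (t + 2) ^ 4),
      abs_of_pos (by norm_num : (0 : ℝ) < 2), abs_mul]
    ring
  simp only [Q, K, e, W, mul_comm b a]
  unfold F Ft
  field_simp
  ring

theorem Q_nonneg {t a b : ℝ} (ht : 0 < t) (ha : a ∈ Icc (-1 : ℝ) 1)
    (hb : b ∈ Icc (-1 : ℝ) 1) : 0 ≤ Q t a b := by
  have := W_nonneg ht.le ha hb
  rw [← Q_eq ht] at this
  exact nonneg_of_mul_nonneg_right this (by positivity)

/-- The multiplier as a function of `x = 2c`. -/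
noncomputable def mulX (x : ℝ) : ℝ := num x / (x + 2) ^ 3

/-- The boundary multiplier. -/
noncomputable def phi (c : ℝ) : ℝ := mulX (2 * c)

theorem mulX_nonneg {x : ℝ} (h0 : 0 ≤ x) (h2 : x ≤ 2) : 0 ≤ mulX x := by
  have h := mul_nonneg h0 (num_nn h0 h2)
  rw [← num_eq] at h
  exact div_nonneg (nonneg_of_mul_nonneg_right h (by norm_num)) (by positivity)

theorem hasDerivAt_num (x : ℝ) : HasDerivAt num (dnum x) x := by
  refine ((((((((((((hasDerivAt_pow 1 x).const_mul (8 / 3 : ℝ)).fun_add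
    ((hasDerivAt_pow 2 x).const_mul (4 / 1 : ℝ))).fun_add
    ((hasDerivAt_pow 3 x).const_mul (32 / 15 : ℝ))).fun_add
    ((hasDerivAt_pow 4 x).const_mul (791 / 750 : ℝ))).fun_add
    ((hasDerivAt_pow 5 x).const_mul (6647 / 7500 : ℝ))).fun_add
    ((hasDerivAt_pow 6 x).const_mul (7476019 / 100485000 : ℝ))).fun_add
    ((hasDerivAt_pow 7 x).const_mul (-96334893 / 357280000 : ℝ))).fun_add
    ((hasDerivAt_pow 8 x).const_mul (-2074613 / 45936000 : ℝ))).fun_add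
    ((hasDerivAt_pow 9 x).const_mul (1490723 / 51040000 : ℝ))).fun_add
    ((hasDerivAt_pow 10 x).const_mul (1490723 / 306240000 : ℝ))).congr_of_eventuallyEq (Filter.Eventually.of_forall fun y => ?_)).congr_deriv ?_
  · simp only [num]; ring
  · simp only [dnum]; push_cast; ring

theorem hasDerivAt_dnum (x : ℝ) : HasDerivAt dnum (ddnum x) x := by
  refine ((((((((((((hasDerivAt_pow 1 x).const_mul (8 / 1 : ℝ)).fun_add
    ((hasDerivAt_pow 2 x).const_mul (32 / 5 : ℝ))).fun_add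
    ((hasDerivAt_pow 3 x).const_mul (1582 / 375 : ℝ))).fun_add
    ((hasDerivAt_pow 4 x).const_mul (6647 / 1500 : ℝ))).fun_add
    ((hasDerivAt_pow 5 x).const_mul (7476019 / 16747500 : ℝ))).fun_add
    ((hasDerivAt_pow 6 x).const_mul (-96334893 / 51040000 : ℝ))).fun_add
    ((hasDerivAt_pow 7 x).const_mul (-2074613 / 5742000 : ℝ))).fun_add
    ((hasDerivAt_pow 8 x).const_mul (13416507 / 51040000 : ℝ))).fun_add
    ((hasDerivAt_pow 9 x).const_mul (1490723 / 30624000 : ℝ))).const_add (8 / 3 : ℝ)).congr_of_eventuallyEq (Filter.Eventually.of_forall fun y => ?_)).congr_deriv ?_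
  · simp only [dnum]; ring
  · simp only [ddnum]; push_cast; ring

theorem convexOn_mulX : ConvexOn ℝ (Icc (0 : ℝ) 2) mulX := by
  have pos : ∀ x ∈ Icc (0 : ℝ) 2, x + 2 ≠ 0 := fun x hx => by linarith [hx.1]
  refine convexOn_of_hasDerivWithinAt2_nonneg (convex_Icc 0 2)
    (f' := fun x => (dnum x * (x + 2) - 3 * num x) / (x + 2) ^ 4)
    (f'' := fun x => (ddnum x * (x + 2) ^ 2 - 6 * dnum x * (x + 2) + 12 * num x) / (x + 2) ^ 5)
    ?_ ?_ ?_ ?_
  · unfold mulX num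
    exact ContinuousOn.div (by fun_prop) (by fun_prop) fun x hx => pow_ne_zero _ (pos x hx)
  · intro x hx
    have hp := pos x (interior_subset hx)
    refine (((hasDerivAt_num x).div (((hasDerivAt_id' x).add_const 2).pow 3)
      (pow_ne_zero _ hp)).congr_deriv ?_).hasDerivWithinAt
    simp only [Pi.pow_apply]
    field_simp
    ring
  · intro x hx
    have hp := pos x (interior_subset hx)
    refine ((((hasDerivAt_dnum x).mul ((hasDerivAt_id' x).add_const 2)).sub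
      ((hasDerivAt_num x).const_mul 3)).div (((hasDerivAt_id' x).add_const 2).pow 4)
      (pow_ne_zero _ hp)).congr_deriv ?_ |>.hasDerivWithinAt
    simp only [Pi.pow_apply, Pi.sub_apply, Pi.mul_apply]
    field_simp
    ring
  · intro x hx
    obtain ⟨h0, h2⟩ := interior_subset hx
    have h := cv_nn h0 h2
    rw [← cv_eq] at h
    exact div_nonneg (nonneg_of_mul_nonneg_right h (by norm_num)) (by positivity)

/-- The pointwise certificate, with equality at `a = b = t/2`. -/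
theorem cert {t a b : ℝ} (ht : 0 < t) (ha : a ∈ Ioc (0 : ℝ) 1) (hb : b ∈ Ioc (0 : ℝ) 1) :
    t ≤ t ^ 9 / (a * b) * Q t a b + phi a + phi b := by
  have A : a ∈ Icc (0 : ℝ) 1 := ⟨ha.1.le, ha.2⟩
  have B : b ∈ Icc (0 : ℝ) 1 := ⟨hb.1.le, hb.2⟩
  obtain ⟨h1, h2⟩ := sp_bounds A B
  have h := Hs_nonneg ht.le (add_nonneg A.1 B.1) (by linarith [A.2, B.2]) h1 h2
  have hmid : 2 * mulX (a + b) ≤ phi a + phi b := by
    have := convexOn_mulX.2 (x := 2 * a) ⟨by linarith [A.1], by linarith [A.2]⟩ (y := 2 * b)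
      ⟨by linarith [B.1], by linarith [B.2]⟩ (by norm_num : (0 : ℝ) ≤ 1 / 2)
      (by norm_num : (0 : ℝ) ≤ 1 / 2) (by norm_num)
    simp only [smul_eq_mul] at this
    rw [show 1 / 2 * (2 * a) + 1 / 2 * (2 * b) = a + b by ring] at this
    unfold phi
    linarith
  have hab := mul_pos ha.1 hb.1
  have t2 : 0 < t + 2 := by linarith
  have s2 : 0 < a + b + 2 := by linarith [ha.1, hb.1]
  have key : Hs t (a + b) (a * b) = 2 * (t + 2) ^ 5 * (a * b) * (a + b + 2) ^ 3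
      * (t ^ 9 / (a * b) * Q t a b + 2 * mulX (a + b) - t) := by
    have hq : t ^ 9 / (a * b) * Q t a b = t ^ 3 * W t a b / (2 * (t + 2) ^ 5 * (a * b)) := by
      rw [← Q_eq ht]
      field_simp
    rw [hq, W_eq_Ws A.1 B.1]
    unfold Hs mulX
    have := ha.1.ne'; have := hb.1.ne'
    field_simp
    ring
  rw [key] at h
  linarith [nonneg_of_mul_nonneg_right h (by positivity)]

end Vale.Agent.P219.Ten
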