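import Vale.Agent.P219.Cert.TenData

/-!
# P219: positivity facts of the calibration in dimension ten
-/

namespace Vale.Agent.P219.Ten

open PosCheck

theorem w0_nn {t s : ℝ} (ht0 : 0 ≤ t) (hs0 : 0 ≤ s) (hs1 : s ≤ 1) :
    0 ≤ ev2 tW0 t s := by
  rcases le_total t (2) with h2 | h2
  ·
    exact ev2_nonneg (k := 3) (T := ⟨0, some (2), 1⟩) (S := ⟨0, some (1), 1⟩) (P := tW0) (by decide +kernel)
      (by constructor <;> dsimp only <;> push_cast <;> first | trivial | linarith)
      (by constructor <;> dsimp only <;> push_cast <;> linarith)
  ·
    exact ev2_nonneg (k := 3) (T := ⟨2, none, 1⟩) (S := ⟨0, some (1), 1⟩) (P := tW0) (by decide +kernel)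
      (by constructor <;> dsimp only <;> push_cast <;> first | trivial | linarith)
      (by constructor <;> dsimp only <;> push_cast <;> linarith)

theorem wd_nn {t s : ℝ} (ht0 : 0 ≤ t) (hs0 : 0 ≤ s) (hs1 : s ≤ 2) :
    0 ≤ ev2 tWd t s := by
  rcases le_total t (2) with h2 | h2
  ·
    rcases le_total s (1) with h4 | h4
    ·
      exact ev2_nonneg (k := 5) (T := ⟨0, some (2), 1⟩) (S := ⟨0, some (1), 1⟩) (P := tWd) (by decide +kernel)
        (by constructor <;> dsimp only <;> push_cast <;> first | trivial | linarith)
        (by constructor <;> dsimp only <;> push_cast <;> linarith)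
    ·
      rcases le_total t (1) with h6 | h6
      ·
        rcases le_total s (3 / 2) with h8 | h8
        ·
          exact ev2_nonneg (k := 5) (T := ⟨0, some (1), 1⟩) (S := ⟨2, some (3), 2⟩) (P := tWd) (by decide +kernel)
            (by constructor <;> dsimp only <;> push_cast <;> first | trivial | linarith)
            (by constructor <;> dsimp only <;> push_cast <;> linarith)
        ·
          rcases le_total t (1 / 2) with h10 | h10
          ·
            exact ev2_nonneg (k := 5) (T := ⟨0, some (1), 2⟩) (S := ⟨3, some (4), 2⟩) (P := tWd) (by decide +kernel)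
              (by constructor <;> dsimp only <;> push_cast <;> first | trivial | linarith)
              (by constructor <;> dsimp only <;> push_cast <;> linarith)
          ·
            exact ev2_nonneg (k := 5) (T := ⟨1, some (2), 2⟩) (S := ⟨3, some (4), 2⟩) (P := tWd) (by decide +kernel)
              (by constructor <;> dsimp only <;> push_cast <;> first | trivial | linarith)
              (by constructor <;> dsimp only <;> push_cast <;> linarith)
      ·
        rcases le_total s (3 / 2) with h8 | h8
        ·
          exact ev2_nonneg (k := 5) (T := ⟨1, some (2), 1⟩) (S := ⟨2, some (3), 2⟩) (P := tWd) (by decide +kernel)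
            (by constructor <;> dsimp only <;> push_cast <;> first | trivial | linarith)
            (by constructor <;> dsimp only <;> push_cast <;> linarith)
        ·
          rcases le_total t (3 / 2) with h10 | h10
          ·
            exact ev2_nonneg (k := 5) (T := ⟨2, some (3), 2⟩) (S := ⟨3, some (4), 2⟩) (P := tWd) (by decide +kernel)
              (by constructor <;> dsimp only <;> push_cast <;> first | trivial | linarith)
              (by constructor <;> dsimp only <;> push_cast <;> linarith)
          ·
            rcases le_total s (7 / 4) with h12 | h12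
            ·
              exact ev2_nonneg (k := 5) (T := ⟨3, some (4), 2⟩) (S := ⟨6, some (7), 4⟩) (P := tWd) (by decide +kernel)
                (by constructor <;> dsimp only <;> push_cast <;> first | trivial | linarith)
                (by constructor <;> dsimp only <;> push_cast <;> linarith)
            ·
              rcases le_total t (7 / 4) with h14 | h14
              ·
                exact ev2_nonneg (k := 5) (T := ⟨6, some (7), 4⟩) (S := ⟨7, some (8), 4⟩) (P := tWd) (by decide +kernel)
                  (by constructor <;> dsimp only <;> push_cast <;> first | trivial | linarith)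
                  (by constructor <;> dsimp only <;> push_cast <;> linarith)
              ·
                exact ev2_nonneg (k := 5) (T := ⟨7, some (8), 4⟩) (S := ⟨7, some (8), 4⟩) (P := tWd) (by decide +kernel)
                  (by constructor <;> dsimp only <;> push_cast <;> first | trivial | linarith)
                  (by constructor <;> dsimp only <;> push_cast <;> linarith)
  ·
    exact ev2_nonneg (k := 5) (T := ⟨2, none, 1⟩) (S := ⟨0, some (2), 1⟩) (P := tWd) (by decide +kernel)
      (by constructor <;> dsimp only <;> push_cast <;> first | trivial | linarith)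
      (by constructor <;> dsimp only <;> push_cast <;> linarith)

theorem we_nn {t s : ℝ} (ht0 : 0 ≤ t) (hs0 : 1 ≤ s) (hs1 : s ≤ 2) :
    0 ≤ ev2 tWe t s := by
  rcases le_total t (2) with h2 | h2
  ·
    rcases le_total s (3 / 2) with h4 | h4
    ·
      rcases le_total t (1) with h6 | h6
      ·
        exact ev2_nonneg (k := 4) (T := ⟨0, some (1), 1⟩) (S := ⟨2, some (3), 2⟩) (P := tWe) (by decide +kernel)
          (by constructor <;> dsimp only <;> push_cast <;> first | trivial | linarith)
          (by constructor <;> dsimp only <;> push_cast <;> linarith)
      ·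
        exact ev2_nonneg (k := 4) (T := ⟨1, some (2), 1⟩) (S := ⟨2, some (3), 2⟩) (P := tWe) (by decide +kernel)
          (by constructor <;> dsimp only <;> push_cast <;> first | trivial | linarith)
          (by constructor <;> dsimp only <;> push_cast <;> linarith)
    ·
      rcases le_total t (1) with h6 | h6
      ·
        rcases le_total s (7 / 4) with h8 | h8
        ·
          exact ev2_nonneg (k := 4) (T := ⟨0, some (1), 1⟩) (S := ⟨6, some (7), 4⟩) (P := tWe) (by decide +kernel)
            (by constructor <;> dsimp only <;> push_cast <;> first | trivial | linarith)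
            (by constructor <;> dsimp only <;> push_cast <;> linarith)
        ·
          rcases le_total t (1 / 2) with h10 | h10
          ·
            exact ev2_nonneg (k := 4) (T := ⟨0, some (1), 2⟩) (S := ⟨7, some (8), 4⟩) (P := tWe) (by decide +kernel)
              (by constructor <;> dsimp only <;> push_cast <;> first | trivial | linarith)
              (by constructor <;> dsimp only <;> push_cast <;> linarith)
          ·
            exact ev2_nonneg (k := 4) (T := ⟨1, some (2), 2⟩) (S := ⟨7, some (8), 4⟩) (P := tWe) (by decide +kernel)
              (by constructor <;> dsimp only <;> push_cast <;> first | trivial | linarith)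
              (by constructor <;> dsimp only <;> push_cast <;> linarith)
      ·
        rcases le_total s (7 / 4) with h8 | h8
        ·
          exact ev2_nonneg (k := 4) (T := ⟨1, some (2), 1⟩) (S := ⟨6, some (7), 4⟩) (P := tWe) (by decide +kernel)
            (by constructor <;> dsimp only <;> push_cast <;> first | trivial | linarith)
            (by constructor <;> dsimp only <;> push_cast <;> linarith)
        ·
          rcases le_total t (3 / 2) with h10 | h10
          ·
            exact ev2_nonneg (k := 4) (T := ⟨2, some (3), 2⟩) (S := ⟨7, some (8), 4⟩) (P := tWe) (by decide +kernel)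
              (by constructor <;> dsimp only <;> push_cast <;> first | trivial | linarith)
              (by constructor <;> dsimp only <;> push_cast <;> linarith)
          ·
            rcases le_total s (15 / 8) with h12 | h12
            ·
              exact ev2_nonneg (k := 4) (T := ⟨3, some (4), 2⟩) (S := ⟨14, some (15), 8⟩) (P := tWe) (by decide +kernel)
                (by constructor <;> dsimp only <;> push_cast <;> first | trivial | linarith)
                (by constructor <;> dsimp only <;> push_cast <;> linarith)
            ·
              rcases le_total t (7 / 4) with h14 | h14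
              ·
                exact ev2_nonneg (k := 4) (T := ⟨6, some (7), 4⟩) (S := ⟨15, some (16), 8⟩) (P := tWe) (by decide +kernel)
                  (by constructor <;> dsimp only <;> push_cast <;> first | trivial | linarith)
                  (by constructor <;> dsimp only <;> push_cast <;> linarith)
              ·
                exact ev2_nonneg (k := 4) (T := ⟨7, some (8), 4⟩) (S := ⟨15, some (16), 8⟩) (P := tWe) (by decide +kernel)
                  (by constructor <;> dsimp only <;> push_cast <;> first | trivial | linarith)
                  (by constructor <;> dsimp only <;> push_cast <;> linarith)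
  ·
    exact ev2_nonneg (k := 4) (T := ⟨2, none, 1⟩) (S := ⟨1, some (2), 1⟩) (P := tWe) (by decide +kernel)
      (by constructor <;> dsimp only <;> push_cast <;> first | trivial | linarith)
      (by constructor <;> dsimp only <;> push_cast <;> linarith)

theorem w2_nn {t : ℝ} (ht0 : 0 ≤ t) :
    0 ≤ ev tW2 t := by
  exact ev_nonneg (S := ⟨0, none, 1⟩) (by decide +kernel) (by constructor <;> dsimp only <;> push_cast <;> linarith)

theorem hq_nn {t s : ℝ} (ht0 : 0 ≤ t) (hs0 : 0 ≤ s) (hs1 : s ≤ 2) :
    0 ≤ ev2 tHq t s := by
  exact ev2_nonneg (k := 25) (T := ⟨0, none, 1⟩) (S := ⟨0, some (2), 1⟩) (P := tHq) (by decide +kernel)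
    (by constructor <;> dsimp only <;> push_cast <;> first | trivial | linarith)
    (by constructor <;> dsimp only <;> push_cast <;> linarith)

theorem he_left {t s : ℝ} (ht0 : 0 ≤ t) (ht1 : t ≤ 7 / 4) (hs0 : 1 ≤ s) (hs1 : s ≤ 2) :
    0 ≤ ev2 tHe t s := by
  rcases le_total t (7 / 8) with h2 | h2
  ·
    exact ev2_nonneg (k := 12) (T := ⟨0, some (7), 8⟩) (S := ⟨1, some (2), 1⟩) (P := tHe) (by decide +kernel)
      (by constructor <;> dsimp only <;> push_cast <;> first | trivial | linarith)
      (by constructor <;> dsimp only <;> push_cast <;> linarith)
  ·
    rcases le_total s (3 / 2) with h4 | h4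
    ·
      rcases le_total t (21 / 16) with h6 | h6
      ·
        exact ev2_nonneg (k := 12) (T := ⟨14, some (21), 16⟩) (S := ⟨2, some (3), 2⟩) (P := tHe) (by decide +kernel)
          (by constructor <;> dsimp only <;> push_cast <;> first | trivial | linarith)
          (by constructor <;> dsimp only <;> push_cast <;> linarith)
      ·
        exact ev2_nonneg (k := 12) (T := ⟨21, some (28), 16⟩) (S := ⟨2, some (3), 2⟩) (P := tHe) (by decide +kernel)
          (by constructor <;> dsimp only <;> push_cast <;> first | trivial | linarith)
          (by constructor <;> dsimp only <;> push_cast <;> linarith)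
    ·
      rcases le_total t (21 / 16) with h6 | h6
      ·
        exact ev2_nonneg (k := 12) (T := ⟨14, some (21), 16⟩) (S := ⟨3, some (4), 2⟩) (P := tHe) (by decide +kernel)
          (by constructor <;> dsimp only <;> push_cast <;> first | trivial | linarith)
          (by constructor <;> dsimp only <;> push_cast <;> linarith)
      ·
        rcases le_total s (7 / 4) with h8 | h8
        ·
          rcases le_total t (49 / 32) with h10 | h10
          ·
            exact ev2_nonneg (k := 12) (T := ⟨42, some (49), 32⟩) (S := ⟨6, some (7), 4⟩) (P := tHe) (by decide +kernel)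
              (by constructor <;> dsimp only <;> push_cast <;> first | trivial | linarith)
              (by constructor <;> dsimp only <;> push_cast <;> linarith)
          ·
            rcases le_total s (13 / 8) with h12 | h12
            ·
              exact ev2_nonneg (k := 12) (T := ⟨49, some (56), 32⟩) (S := ⟨12, some (13), 8⟩) (P := tHe) (by decide +kernel)
                (by constructor <;> dsimp only <;> push_cast <;> first | trivial | linarith)
                (by constructor <;> dsimp only <;> push_cast <;> linarith)
            ·
              exact ev2_nonneg (k := 12) (T := ⟨49, some (56), 32⟩) (S := ⟨13, some (14), 8⟩) (P := tHe) (by decide +kernel)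
                (by constructor <;> dsimp only <;> push_cast <;> first | trivial | linarith)
                (by constructor <;> dsimp only <;> push_cast <;> linarith)
        ·
          exact ev2_nonneg (k := 12) (T := ⟨21, some (28), 16⟩) (S := ⟨7, some (8), 4⟩) (P := tHe) (by decide +kernel)
            (by constructor <;> dsimp only <;> push_cast <;> first | trivial | linarith)
            (by constructor <;> dsimp only <;> push_cast <;> linarith)

theorem he_low {t s : ℝ} (ht0 : 7 / 4 ≤ t) (hs0 : 1 ≤ s) (hs1 : s ≤ 7 / 4) :
    0 ≤ ev2 tHe t s := by
  exact ev2_nonneg (k := 12) (T := ⟨7, none, 4⟩) (S := ⟨4, some (7), 4⟩) (P := tHe) (by decide +kernel)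
    (by constructor <;> dsimp only <;> push_cast <;> first | trivial | linarith)
    (by constructor <;> dsimp only <;> push_cast <;> linarith)

theorem he_right {t s : ℝ} (ht0 : 2 ≤ t) (hs0 : 7 / 4 ≤ s) (hs1 : s ≤ 2) :
    0 ≤ ev2 tHe t s := by
  exact ev2_nonneg (k := 12) (T := ⟨2, none, 1⟩) (S := ⟨7, some (8), 4⟩) (P := tHe) (by decide +kernel)
    (by constructor <;> dsimp only <;> push_cast <;> first | trivial | linarith)
    (by constructor <;> dsimp only <;> push_cast <;> linarith)

theorem a_pos {t s : ℝ} (ht0 : 7 / 4 ≤ t) (ht1 : t ≤ 2) (hs0 : 7 / 4 ≤ s) (hs1 : s ≤ 2) :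
    0 ≤ ev2 tA1 t s := by
  exact ev2_nonneg (k := 24) (T := ⟨7, some (8), 4⟩) (S := ⟨7, some (8), 4⟩) (P := tA1) (by decide +kernel)
    (by constructor <;> dsimp only <;> push_cast <;> first | trivial | linarith)
    (by constructor <;> dsimp only <;> push_cast <;> linarith)

theorem disc_nn {t s : ℝ} (ht0 : 7 / 4 ≤ t) (ht1 : t ≤ 2) (hs0 : 7 / 4 ≤ s) (hs1 : s ≤ 2) :
    0 ≤ ev2 tDisc t s := by
  exact ev2_nonneg (k := 39) (T := ⟨7, some (8), 4⟩) (S := ⟨7, some (8), 4⟩) (P := tDisc) (by decide +kernel)
    (by constructor <;> dsimp only <;> push_cast <;> first | trivial | linarith)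
    (by constructor <;> dsimp only <;> push_cast <;> linarith)

theorem cv_nn {t : ℝ} (ht0 : 0 ≤ t) (ht1 : t ≤ 2) :
    0 ≤ ev tCv t := by
  rcases le_total t (1) with h2 | h2
  ·
    exact ev_nonneg (S := ⟨0, some (1), 1⟩) (by decide +kernel) (by constructor <;> dsimp only <;> push_cast <;> linarith)
  ·
    rcases le_total t (3 / 2) with h4 | h4
    ·
      exact ev_nonneg (S := ⟨2, some (3), 2⟩) (by decide +kernel) (by constructor <;> dsimp only <;> push_cast <;> linarith)
    ·
      rcases le_total t (7 / 4) with h6 | h6
      ·
        rcases le_total t (13 / 8) with h8 | h8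
        ·
          exact ev_nonneg (S := ⟨12, some (13), 8⟩) (by decide +kernel) (by constructor <;> dsimp only <;> push_cast <;> linarith)
        ·
          exact ev_nonneg (S := ⟨13, some (14), 8⟩) (by decide +kernel) (by constructor <;> dsimp only <;> push_cast <;> linarith)
      ·
        exact ev_nonneg (S := ⟨7, some (8), 4⟩) (by decide +kernel) (by constructor <;> dsimp only <;> push_cast <;> linarith)

theorem num_nn {t : ℝ} (ht0 : 0 ≤ t) (ht1 : t ≤ 2) :
    0 ≤ ev tNum t := by
  exact ev_nonneg (S := ⟨0, some (2), 1⟩) (by decide +kernel) (by constructor <;> dsimp only <;> push_cast <;> linarith)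

theorem pr_nn {t : ℝ} (ht0 : 0 ≤ t) :
    0 ≤ ev tPR t := by
  rcases le_total t (2) with h2 | h2
  ·
    rcases le_total t (1) with h4 | h4
    ·
      rcases le_total t (1 / 2) with h6 | h6
      ·
        exact ev_nonneg (S := ⟨0, some (1), 2⟩) (by decide +kernel) (by constructor <;> dsimp only <;> push_cast <;> linarith)
      ·
        rcases le_total t (3 / 4) with h8 | h8
        ·
          exact ev_nonneg (S := ⟨2, some (3), 4⟩) (by decide +kernel) (by constructor <;> dsimp only <;> push_cast <;> linarith)
        ·
          exact ev_nonneg (S := ⟨3, some (4), 4⟩) (by decide +kernel) (by constructor <;> dsimp only <;> push_cast <;> linarith)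
    ·
      exact ev_nonneg (S := ⟨1, some (2), 1⟩) (by decide +kernel) (by constructor <;> dsimp only <;> push_cast <;> linarith)
  ·
    exact ev_nonneg (S := ⟨2, none, 1⟩) (by decide +kernel) (by constructor <;> dsimp only <;> push_cast <;> linarith)

end Vale.Agent.P219.Ten
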